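import Vale.Agent.P092.H432.Frame

/-!
P092 (helper377): changing the groups of an amplified frame: subgroups of `Λ`, and subgroups of
finite index of `Γ`.
-/

set_option linter.all false

open scoped InnerProductSpace
open Filter Topology ContinuousLinearMap

namespace Vale.Agent.P092.H377

open Vale.Agent.P092.H160 Vale.Agent.P092.H553 Vale.Agent.P092.H432

/-- Restriction to a subgroup of `Λ`. -/
theorem arep_comp {Γ Λ Λ₀ ι : Type} [Group Γ] [Group Λ] [Group Λ₀] [Fintype ι] {t : ℝ}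
    {R : Λ → (Ell2 (Γ × ι) →L[ℂ] Ell2 (Γ × ι))} (hR : ARep t R) (ψ : Λ₀ →* Λ)
    (hψ : Function.Injective ψ) : ARep t (fun v => R (ψ v)) where
  ra v := hR.ra _
  mul v w := by rw [map_mul, hR.mul]
  adj v := by rw [map_inv, hR.adj]
  pos := hR.pos
  tr_one := by rw [map_one]; exact hR.tr_one
  tr_zero v hv := hR.tr_zero _ fun h => hv (hψ (by rw [h, map_one]))

section

variable {Γ G₀ : Type} [Group Γ] [Group G₀] (j : G₀ →* Γ) (hj : Function.Injective j)

/-- Right cosets of the image of `j`. -/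
abbrev Kap : Type := Quotient (QuotientGroup.rightRel j.range)

/-- The class of an element. -/
def kcl (g : Γ) : Kap j := Quotient.mk (QuotientGroup.rightRel j.range) g

theorem kcl_eq {g h : Γ} : kcl j g = kcl j h ↔ h * g⁻¹ ∈ j.range := by
  unfold kcl
  rw [Quotient.eq, QuotientGroup.rightRel_apply]

/-- A representative. -/
noncomputable def krep (k : Kap j) : Γ := Quotient.out k

theorem kcl_krep (k : Kap j) : kcl j (krep j k) = k := Quotient.out_eq k

theorem kcl_mul (s : G₀) (g : Γ) : kcl j (j s * g) = kcl j g := by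
  rw [kcl_eq]
  refine ⟨s⁻¹, ?_⟩
  rw [map_inv]; group

theorem exists_fst (g : Γ) : ∃ s : G₀, j s * krep j (kcl j g) = g := by
  have h : kcl j (krep j (kcl j g)) = kcl j g := kcl_krep j _
  rw [kcl_eq] at h
  obtain ⟨s, hs⟩ := h
  exact ⟨s, by rw [hs]; group⟩

/-- The `G₀`-part of an element. -/
noncomputable def kfst (g : Γ) : G₀ := (exists_fst j g).choose

theorem kfst_spec (g : Γ) : j (kfst j g) * krep j (kcl j g) = g := (exists_fst j g).choose_spec

/-- `Γ ≃ G₀ × Kap`. -/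
noncomputable def kequiv : Γ ≃ G₀ × Kap j where
  toFun g := (kfst j g, kcl j g)
  invFun x := j x.1 * krep j x.2
  left_inv g := kfst_spec j g
  right_inv x := by
    have h1 : kcl j (j x.1 * krep j x.2) = x.2 := by rw [kcl_mul, kcl_krep]
    have h2 := kfst_spec j (j x.1 * krep j x.2)
    rw [h1] at h2
    refine Prod.ext (hj (mul_right_cancel h2)) h1

theorem kequiv_mul (s : G₀) (g : Γ) :
    kequiv j hj (j s * g) = (s * (kequiv j hj g).1, (kequiv j hj g).2) := by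
  apply (kequiv j hj).symm.injective
  rw [Equiv.symm_apply_apply]
  change j s * g = j (s * (kequiv j hj g).1) * krep j (kequiv j hj g).2
  rw [map_mul, mul_assoc]
  change j s * g = j s * ((kequiv j hj).symm (kequiv j hj g))
  rw [Equiv.symm_apply_apply]

/-- The reindexing. -/
noncomputable def ke (ι : Type) : Γ × ι ≃ G₀ × (Kap j × ι) :=
  ((kequiv j hj).prodCongr (Equiv.refl ι)).trans (Equiv.prodAssoc _ _ _)

/-- The unitary `ℓ²(Γ × ι) → ℓ²(G₀ × (Kap × ι))`. -/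
noncomputable def ku (ι : Type) : Ell2 (Γ × ι) →L[ℂ] Ell2 (G₀ × (Kap j × ι)) := rei (ke j hj ι)

/-- Its inverse. -/
noncomputable def kv (ι : Type) : Ell2 (G₀ × (Kap j × ι)) →L[ℂ] Ell2 (Γ × ι) :=
  rei (ke j hj ι).symm

theorem kv_ku {ι : Type} (ξ : Ell2 (Γ × ι)) : kv j hj ι (ku j hj ι ξ) = ξ := by
  rw [kv, ku, rei_rei, Equiv.self_trans_symm, rei_refl]

theorem ku_kv {ι : Type} (ξ : Ell2 (G₀ × (Kap j × ι))) : ku j hj ι (kv j hj ι ξ) = ξ := by
  rw [kv, ku, rei_rei, Equiv.symm_trans_self, rei_refl]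

theorem ku_lx {ι : Type} (s : G₀) (ξ : Ell2 (Γ × ι)) :
    ku j hj ι (lx (j s) ξ) = lx s (ku j hj ι ξ) := by
  rw [ku, lx, lx, rei_rei, rei_rei]
  have h : ((Equiv.mulLeft (j s)).prodCongr (Equiv.refl ι)).trans (ke j hj ι) =
      (ke j hj ι).trans ((Equiv.mulLeft s).prodCongr (Equiv.refl (Kap j × ι))) := by
    ext x : 1
    change ((kequiv j hj (j s * x.1)).1, ((kequiv j hj (j s * x.1)).2, x.2)) =
      (s * (kequiv j hj x.1).1, ((kequiv j hj x.1).2, x.2))
    rw [kequiv_mul]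
  rw [h]

theorem kv_lx {ι : Type} (s : G₀) (ξ : Ell2 (G₀ × (Kap j × ι))) :
    kv j hj ι (lx s ξ) = lx (j s) (kv j hj ι ξ) := by
  have h := ku_lx j hj s (kv j hj ι ξ)
  rw [ku_kv] at h
  rw [← h, kv_ku]

theorem adjoint_ku {ι : Type} : adjoint (ku j hj ι) = kv j hj ι := adjoint_rei _

theorem adjoint_kv {ι : Type} : adjoint (kv j hj ι) = ku j hj ι := by
  rw [← adjoint_ku, adjoint_adjoint]

theorem kv_ep {ι : Type} (k : Kap j) (i : ι) :
    kv j hj ι (ep (k, i)) = (lx (krep j k) (ep i) : Ell2 (Γ × ι)) := by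
  rw [lx_ep, ep, kv, rei_dl]
  change dl (j 1 * krep j k, i) = dl (krep j k, i)
  rw [map_one, one_mul]

/-- The transported operators. -/
noncomputable def tr0 {Λ ι : Type} (R : Λ → (Ell2 (Γ × ι) →L[ℂ] Ell2 (Γ × ι))) (v : Λ) :
    Ell2 (G₀ × (Kap j × ι)) →L[ℂ] Ell2 (G₀ × (Kap j × ι)) :=
  ku j hj ι ∘L R v ∘L kv j hj ι

theorem tr0_apply {Λ ι : Type} (R : Λ → (Ell2 (Γ × ι) →L[ℂ] Ell2 (Γ × ι))) (v : Λ)
    (ξ : Ell2 (G₀ × (Kap j × ι))) :
    tr0 j hj R v ξ = ku j hj ι (R v (kv j hj ι ξ)) := rfl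

theorem inner_ku {ι : Type} (ξ η : Ell2 (Γ × ι)) :
    ⟪ku j hj ι ξ, ku j hj ι η⟫_ℂ = ⟪ξ, η⟫_ℂ := inner_rei _ _ _

theorem inner_kv {ι : Type} (ξ : Ell2 (G₀ × (Kap j × ι))) (η : Ell2 (Γ × ι)) :
    ⟪ξ, ku j hj ι η⟫_ℂ = ⟪kv j hj ι ξ, η⟫_ℂ := by
  rw [← adjoint_ku, adjoint_inner_left]

/-- Restriction of the left translations to a subgroup of finite index. -/
theorem arep_tr0 {Λ ι : Type} [Group Λ] [Fintype ι] [Fintype (Kap j)] {t : ℝ}
    {R : Λ → (Ell2 (Γ × ι) →L[ℂ] Ell2 (Γ × ι))} (hR : ARep t R) :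
    ARep (t * Fintype.card (Kap j)) (tr0 j hj R) where
  ra v := by
    intro s
    ext ξ : 1
    change tr0 j hj R v (lx s ξ) = lx s (tr0 j hj R v ξ)
    rw [tr0_apply, tr0_apply, kv_lx, (hR.ra v).app, ku_lx]
  mul v w := by
    ext ξ : 1
    change tr0 j hj R (v * w) ξ = tr0 j hj R v (tr0 j hj R w ξ)
    rw [tr0_apply, tr0_apply, tr0_apply, kv_ku, hR.mul]
    rfl
  adj v := by
    rw [tr0, tr0, adjoint_comp, adjoint_comp, adjoint_ku, adjoint_kv, hR.adj]
    rfl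
  pos := by
    have : 0 < Fintype.card (Kap j) := Fintype.card_pos_iff.2 ⟨kcl j 1⟩
    have h := hR.pos
    positivity
  tr_one := by
    have h : ∀ k : Kap j, ∑ i : ι, ⟪(ep (k, i) : Ell2 (G₀ × (Kap j × ι))),
        tr0 j hj R 1 (ep (k, i))⟫_ℂ = t := by
      intro k
      rw [← hR.tr_one]
      refine Finset.sum_congr rfl fun i _ => ?_
      rw [tr0_apply, inner_kv, kv_ep, (hR.ra 1).app, inner_lx]
    rw [Fintype.sum_prod_type]
    simp only [h]
    simp
    ring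
  tr_zero v hv := by
    have h : ∀ k : Kap j, ∑ i : ι, ⟪(ep (k, i) : Ell2 (G₀ × (Kap j × ι))),
        tr0 j hj R v (ep (k, i))⟫_ℂ = 0 := by
      intro k
      rw [← hR.tr_zero v hv]
      refine Finset.sum_congr rfl fun i _ => ?_
      rw [tr0_apply, inner_kv, kv_ep, (hR.ra v).app, inner_lx]
    rw [Fintype.sum_prod_type]
    simp only [h]
    simp

theorem finite_kap [j.range.FiniteIndex] : Finite (Kap j) :=
  Finite.of_equiv _ (QuotientGroup.quotientRightRelEquivQuotientLeftRel j.range).symm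

theorem arep_finiteIndex {Λ ι : Type} [Group Λ] [Fintype ι] {t : ℝ}
    {R : Λ → (Ell2 (Γ × ι) →L[ℂ] Ell2 (Γ × ι))} (hR : ARep t R) (hj : Function.Injective j)
    [j.range.FiniteIndex] : ∃ (κ : Type) (_ : Fintype κ) (t₁ : ℝ)
      (R₁ : Λ → (Ell2 (G₀ × κ) →L[ℂ] Ell2 (G₀ × κ))), ARep t₁ R₁ := by
  have := finite_kap j
  have := Fintype.ofFinite (Kap j)
  exact ⟨Kap j × ι, inferInstance, _, _, arep_tr0 j hj hR⟩

end

end Vale.Agent.P092.H377
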