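import Vale.Agent.P092.H200.Quot

/-!
P092 (helper377): finite-index subgroups of `PSL_n(ℤ)`: they are ICC, and they contain, with finite
index, a copy of a finite-index subgroup of `SL_n(ℤ)` without `-1`.
-/

set_option linter.all false

namespace Vale.Agent.P092.H377

open Matrix

/-- An element with finitely many conjugates under a subgroup of finite index has a centralizer of
finite index. -/
theorem centralizer_fi {G : Type} [Group G] (H : Subgroup G) [hH : H.FiniteIndex] (a : G)
    (hfin : Set.Finite {y : G | ∃ h ∈ H, y = h * a * h⁻¹}) :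
    (Subgroup.centralizer {a}).FiniteIndex := by
  have h1 : Finite (H ⧸ (Subgroup.centralizer {a}).subgroupOf H) := by
    have h2 : Finite {y : G | ∃ h ∈ H, y = h * a * h⁻¹} := hfin
    have h4 : ∀ x y : H, (x : G) * a * (x : G)⁻¹ = (y : G) * a * (y : G)⁻¹ ↔
        (x : G)⁻¹ * y ∈ Subgroup.centralizer {a} := by
      intro x y
      rw [Subgroup.mem_centralizer_singleton_iff]
      constructor
      · intro e
        have e1 : a = (x : G)⁻¹ * ((y : G) * a * (y : G)⁻¹) * x := by
          rw [← e]; group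
        calc (x : G)⁻¹ * y * a = ((x : G)⁻¹ * ((y : G) * a * (y : G)⁻¹) * x) * ((x : G)⁻¹ * y) := by
              group
          _ = a * ((x : G)⁻¹ * y) := by rw [← e1]
      · intro e
        calc (x : G) * a * (x : G)⁻¹ = x * (a * ((x : G)⁻¹ * y)) * (y : G)⁻¹ := by group
          _ = x * ((x : G)⁻¹ * y * a) * (y : G)⁻¹ := by rw [← e]
          _ = y * a * (y : G)⁻¹ := by group
    refine Finite.of_injective (β := {y : G | ∃ h ∈ H, y = h * a * h⁻¹})
      (fun q => Quotient.liftOn' q
      (fun x : H => (⟨(x : G) * a * (x : G)⁻¹, x, x.2, rfl⟩ : {y : G | ∃ h ∈ H, y = h * a * h⁻¹}))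
      ?_) ?_
    · intro x y hxy
      rw [QuotientGroup.leftRel_apply, Subgroup.mem_subgroupOf] at hxy
      exact Subtype.ext ((h4 x y).mpr hxy)
    · intro p q
      induction p using QuotientGroup.induction_on with | H x => ?_
      induction q using QuotientGroup.induction_on with | H y => ?_
      intro e
      have e1 : (x : G) * a * (x : G)⁻¹ = (y : G) * a * (y : G)⁻¹ := congrArg Subtype.val e
      rw [QuotientGroup.eq, Subgroup.mem_subgroupOf]
      exact (h4 x y).mp e1
  have h2 : ((Subgroup.centralizer {a}).subgroupOf H).FiniteIndex :=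
    Subgroup.finiteIndex_of_finite_quotient
  have h3 : ((Subgroup.centralizer {a}) ⊓ H).FiniteIndex := by
    constructor
    rw [← Subgroup.relIndex_mul_index (inf_le_right : Subgroup.centralizer {a} ⊓ H ≤ H),
      Subgroup.inf_relIndex_right]
    exact mul_ne_zero h2.index_ne_zero hH.index_ne_zero
  exact Subgroup.finiteIndex_of_le (H := Subgroup.centralizer {a} ⊓ H) inf_le_left

/-- ICC for finite-index subgroups of the quotient by a finite normal subgroup containing all
elements with a centralizer of finite index. -/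
theorem icc_quot {G : Type} [Group G] (Z : Subgroup G) [Z.Normal] [Finite Z]
    (hfc : ∀ a : G, (Subgroup.centralizer {a}).FiniteIndex → a ∈ Z)
    (L : Subgroup (G ⧸ Z)) [hL : L.FiniteIndex] (g : L) (hg : g ≠ 1) :
    Set.Infinite {y : L | ∃ h, y = h * g * h⁻¹} := by
  intro hfin
  apply hg
  obtain ⟨a, ha⟩ := QuotientGroup.mk'_surjective Z (g : G ⧸ Z)
  have hH : (L.comap (QuotientGroup.mk' Z)).FiniteIndex := by
    constructor
    rw [Subgroup.index_comap_of_surjective _ (QuotientGroup.mk'_surjective Z)]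
    exact hL.index_ne_zero
  have h1 : Set.Finite {y : G | ∃ h ∈ L.comap (QuotientGroup.mk' Z), y = h * a * h⁻¹} := by
    have h2 : Set.Finite ((fun y : L => (y : G ⧸ Z)) '' {y : L | ∃ h, y = h * g * h⁻¹}) :=
      hfin.image _
    have h3 : Set.Finite (QuotientGroup.mk' Z ⁻¹'
        ((fun y : L => (y : G ⧸ Z)) '' {y : L | ∃ h, y = h * g * h⁻¹})) := by
      refine h2.preimage' fun b _ => ?_
      obtain ⟨c, rfl⟩ := QuotientGroup.mk'_surjective Z b
      have h4 : QuotientGroup.mk' Z ⁻¹' {QuotientGroup.mk' Z c} ⊆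
          (fun k : G => c * k) '' (Z : Set G) := by
        intro x hx
        have hx' : QuotientGroup.mk' Z x = QuotientGroup.mk' Z c := hx
        refine ⟨c⁻¹ * x, ?_, by simp⟩
        rw [SetLike.mem_coe, ← QuotientGroup.eq]
        exact hx'.symm
      exact (Set.Finite.image _ (Set.toFinite _)).subset h4
    refine h3.subset ?_
    rintro _ ⟨h, hh, rfl⟩
    have hh' : QuotientGroup.mk' Z h ∈ L := hh
    refine ⟨⟨QuotientGroup.mk' Z h, hh'⟩ * g * ⟨QuotientGroup.mk' Z h, hh'⟩⁻¹, ⟨_, rfl⟩, ?_⟩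
    change QuotientGroup.mk' Z h * (g : G ⧸ Z) * (QuotientGroup.mk' Z h)⁻¹ = _
    rw [← ha, ← map_inv, ← map_mul, ← map_mul]
  have h5 := hfc a (centralizer_fi _ a h1)
  apply Subtype.ext
  rw [← ha]
  exact (QuotientGroup.eq_one_iff a).mpr h5

/-- An element of `SL_n(ℤ)` with a centralizer of finite index is central. -/
theorem sl_fc {n : ℕ} (g : SpecialLinearGroup (Fin n) ℤ)
    (h : (Subgroup.centralizer {g}).FiniteIndex) :
    g ∈ Subgroup.center (SpecialLinearGroup (Fin n) ℤ) := by
  have hcomm : ∀ i j : Fin n, i ≠ j → ∃ c : ℤ, c ≠ 0 ∧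
      (g : Matrix (Fin n) (Fin n) ℤ) * transvection i j c =
        transvection i j c * (g : Matrix (Fin n) (Fin n) ℤ) := by
    intro i j hij
    obtain ⟨E, hE⟩ : ∃ E : SpecialLinearGroup (Fin n) ℤ,
        (E : Matrix (Fin n) (Fin n) ℤ) = transvection i j 1 :=
      ⟨⟨transvection i j 1, by simp [hij]⟩, rfl⟩
    have hEk : ∀ k : ℕ, ((E ^ k : SpecialLinearGroup (Fin n) ℤ) : Matrix (Fin n) (Fin n) ℤ) =
        transvection i j (k : ℤ) := by
      intro k
      induction k with
      | zero =>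
        rw [Nat.cast_zero, transvection_zero]
        rfl
      | succ k ih =>
        have e : ((E ^ (k + 1) : SpecialLinearGroup (Fin n) ℤ) : Matrix (Fin n) (Fin n) ℤ) =
          ((E ^ k : SpecialLinearGroup (Fin n) ℤ) : Matrix (Fin n) (Fin n) ℤ) *
          (E : Matrix (Fin n) (Fin n) ℤ) := by rw [pow_succ]; rfl
        rw [e, ih, hE, transvection_mul_transvection_same _ _ hij]
        push_cast
        rfl
    obtain ⟨d, hd0, -, hd⟩ := Subgroup.exists_pow_mem_of_index_ne_zero h.index_ne_zero E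
    refine ⟨(d : ℤ), by exact_mod_cast hd0.ne', ?_⟩
    rw [Subgroup.mem_centralizer_singleton_iff] at hd
    have h5 := congrArg (fun y : SpecialLinearGroup (Fin n) ℤ => (y : Matrix (Fin n) (Fin n) ℤ)) hd
    change ((E ^ d : SpecialLinearGroup (Fin n) ℤ) : Matrix (Fin n) (Fin n) ℤ) * (g : Matrix (Fin n) (Fin n) ℤ) =
      (g : Matrix (Fin n) (Fin n) ℤ) * ((E ^ d : SpecialLinearGroup (Fin n) ℤ) : Matrix (Fin n) (Fin n) ℤ) at h5
    rw [hEk] at h5
    exact h5.symm
  set A : Matrix (Fin n) (Fin n) ℤ := (g : Matrix (Fin n) (Fin n) ℤ) with hA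
  have hsc : ∀ i j : Fin n, i ≠ j → A i i = A j j ∧ A j i = 0 := by
    intro i j hij
    obtain ⟨c, hc, h1⟩ := hcomm i j hij
    rw [transvection, mul_add, add_mul, mul_one, one_mul, add_right_inj] at h1
    constructor
    · have h2 := congrFun (congrFun h1 i) j
      simp only [Matrix.mul_single_apply_same, Matrix.single_mul_apply_same] at h2
      rw [mul_comm] at h2
      exact mul_left_cancel₀ hc h2
    · have h2 := congrFun (congrFun h1 j) j
      rw [Matrix.mul_single_apply_same, Matrix.single_mul_apply_of_ne _ _ _ _ _ (Ne.symm hij)] at h2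
      exact (mul_eq_zero.mp h2).resolve_right hc
  rcases Nat.eq_zero_or_pos n with rfl | hn
  · rw [Subgroup.mem_center_iff]
    intro x
    exact Subsingleton.elim _ _
  have h00 : scalar (Fin n) (A ⟨0, hn⟩ ⟨0, hn⟩) = A := by
    ext i j
    rw [scalar_apply, diagonal_apply]
    split_ifs with hij
    · subst hij
      by_cases h0 : i = ⟨0, hn⟩
      · rw [h0]
      · exact ((hsc i _ h0).1).symm
    · exact ((hsc j i (Ne.symm hij)).2).symm
  rw [Matrix.SpecialLinearGroup.mem_center_iff]
  refine ⟨A ⟨0, hn⟩ ⟨0, hn⟩, ?_, h00⟩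
  have hdet : A.det = 1 := g.2
  rw [← h00, scalar_apply, det_diagonal, Finset.prod_const, Finset.card_univ] at hdet
  exact hdet

/-- **Finite-index subgroups of `PSL_n(ℤ)` are ICC.** -/
theorem icc_psl {n : ℕ} (L : Subgroup (ProjectiveSpecialLinearGroup (Fin n) ℤ)) [L.FiniteIndex]
    (g : L) (hg : g ≠ 1) : Set.Infinite {y : L | ∃ h, y = h * g * h⁻¹} := by
  rcases Nat.eq_zero_or_pos n with rfl | hn
  · exfalso
    apply hg
    apply Subtype.ext
    obtain ⟨a, ha⟩ := QuotientGroup.mk'_surjective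
      (Subgroup.center (SpecialLinearGroup (Fin 0) ℤ)) (g : ProjectiveSpecialLinearGroup (Fin 0) ℤ)
    rw [← ha, Subsingleton.elim a 1, map_one]
    rfl
  have := H200.center_sl_finite n hn
  exact icc_quot (Subgroup.center (SpecialLinearGroup (Fin n) ℤ)) (fun a ha => sl_fc a ha) L g hg

/-- The principal congruence subgroup of level three. -/
def G3 (n : ℕ) : Subgroup (SpecialLinearGroup (Fin n) ℤ) :=
  (Matrix.SpecialLinearGroup.map (n := Fin n) (Int.castRingHom (ZMod 3))).ker

instance (n : ℕ) : (G3 n).FiniteIndex := by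
  unfold G3
  have : Finite (SpecialLinearGroup (Fin n) (ZMod 3)) := by
    have : Finite (Matrix (Fin n) (Fin n) (ZMod 3)) := by
      unfold Matrix
      infer_instance
    exact Finite.of_injective (fun A : SpecialLinearGroup (Fin n) (ZMod 3) => (A : Matrix (Fin n) (Fin n) (ZMod 3)))
      Subtype.val_injective
  infer_instance

/-- `Γ(3)` meets the centre trivially. -/
theorem center_inf_G3 {n : ℕ} (g : SpecialLinearGroup (Fin n) ℤ) (hg : g ∈ G3 n)
    (hc : g ∈ Subgroup.center (SpecialLinearGroup (Fin n) ℤ)) : g = 1 := by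
  rcases Nat.eq_zero_or_pos n with rfl | hn
  · exact Subsingleton.elim _ _
  obtain ⟨r, hr, hr'⟩ := Matrix.SpecialLinearGroup.mem_center_iff.mp hc
  rw [Fintype.card_fin] at hr
  have hu : IsUnit r := IsUnit.of_pow_eq_one hr (by omega)
  have h1 : ((r : ℤ) : ZMod 3) = 1 := by
    have h2 := congrArg (fun y : SpecialLinearGroup (Fin n) (ZMod 3) =>
      (y : Matrix (Fin n) (Fin n) (ZMod 3)) ⟨0, hn⟩ ⟨0, hn⟩) (MonoidHom.mem_ker.mp hg)
    simp only [Matrix.SpecialLinearGroup.map_apply_coe, RingHom.mapMatrix_apply, Matrix.map_apply,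
      Matrix.SpecialLinearGroup.coe_one, Matrix.one_apply_eq] at h2
    rw [← hr', scalar_apply, diagonal_apply_eq] at h2
    simpa using h2
  rcases Int.isUnit_iff.mp hu with h | h
  · apply Subtype.ext
    change (g : Matrix (Fin n) (Fin n) ℤ) = 1
    rw [← hr', h, map_one]
  · exfalso
    rw [h] at h1
    exact absurd h1 (by decide)

/-- Every finite-index subgroup of `PSL_n(ℤ)` contains, with finite index, an injective image of a
finite-index subgroup of `SL_n(ℤ)` (contained in `Γ(3)`, so without `-1`). -/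
theorem exists_lift {n : ℕ} (L : Subgroup (ProjectiveSpecialLinearGroup (Fin n) ℤ))
    [hL : L.FiniteIndex] :
    ∃ (Γ : Subgroup (SpecialLinearGroup (Fin n) ℤ)) (j : Γ →* L), Γ.FiniteIndex ∧
      Function.Injective j ∧ j.range.FiniteIndex ∧ Γ ≤ G3 n := by
  classical
  set q := QuotientGroup.mk' (Subgroup.center (SpecialLinearGroup (Fin n) ℤ)) with hq
  set Γ₁ : Subgroup (SpecialLinearGroup (Fin n) ℤ) := L.comap q with hΓ₁
  have hsurj : Function.Surjective q := QuotientGroup.mk'_surjective _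
  have h1 : Γ₁.FiniteIndex := by
    constructor
    rw [hΓ₁, Subgroup.index_comap_of_surjective _ hsurj]
    exact hL.index_ne_zero
  have h2 : (Γ₁ ⊓ G3 n).FiniteIndex := inferInstance
  let j₁ : Γ₁ →* L := q.subgroupComap L
  have hj₁ : Function.Surjective j₁ := by
    rintro ⟨y, hy⟩
    obtain ⟨x, rfl⟩ := hsurj y
    exact ⟨⟨x, hy⟩, rfl⟩
  let j : ↥(Γ₁ ⊓ G3 n) →* L := j₁.comp (Subgroup.inclusion inf_le_left)
  refine ⟨Γ₁ ⊓ G3 n, j, h2, ?_, ?_, inf_le_right⟩
  · rw [injective_iff_map_eq_one]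
    intro x hx
    apply Subtype.ext
    refine center_inf_G3 (x : SpecialLinearGroup (Fin n) ℤ) x.2.2 ?_
    have h3 : q (x : SpecialLinearGroup (Fin n) ℤ) = 1 := congrArg Subtype.val hx
    exact (QuotientGroup.eq_one_iff _).mp h3
  · have h3 : j.range = ((Γ₁ ⊓ G3 n).subgroupOf Γ₁).map j₁ := by
      rw [MonoidHom.range_comp]
      congr 1
      exact Subgroup.inclusion_range _
    have h4 : ((Γ₁ ⊓ G3 n).subgroupOf Γ₁).FiniteIndex := inferInstance
    constructor
    rw [h3]
    intro h0
    have h5 := Subgroup.index_map_dvd ((Γ₁ ⊓ G3 n).subgroupOf Γ₁) hj₁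
    rw [h0] at h5
    exact h4.index_ne_zero (Nat.eq_zero_of_zero_dvd h5)

end Vale.Agent.P092.H377
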