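import Vale.Agent.P092.H377.Cmp
import Vale.Agent.P092.H432.EFam

/-!
P092 (helper377): inversion of amplifications. If `Λ` is represented in a corner of the right algebra
of `Γ` of trace `t` and generates it, then `Γ` is represented in a corner of the right algebra of
`Λ`, of trace `1/t`.
-/

set_option linter.all false

open scoped InnerProductSpace
open Filter Topology ContinuousLinearMap

namespace Vale.Agent.P092.H377

open Vale.Agent.P092.H160 Vale.Agent.P092.H553 Vale.Agent.P092.H432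

section cover

variable {Γ ι : Type} [Group Γ] [Fintype ι]

/-- A projection of trace at most `n τ(P)` is a sum `∑ b_j* b_j` with `n` elements of `P RA q`. -/
theorem exists_cover (hΓ : ∀ g : Γ, g ≠ 1 → Set.Infinite {y | ∃ h, y = h * g * h⁻¹})
    {P : Ell2 (Γ × ι) →L[ℂ] Ell2 (Γ × ι)} (hP : RA P) (hP1 : adjoint P = P) (hP2 : P * P = P) :
    ∀ (n : ℕ) (q : Ell2 (Γ × ι) →L[ℂ] Ell2 (Γ × ι)), RA q → adjoint q = q → q * q = q →
      nn q ≤ n * nn P → ∃ b : Fin n → (Ell2 (Γ × ι) →L[ℂ] Ell2 (Γ × ι)), (∀ j, RA (b j)) ∧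
        (∀ j, P * b j = b j) ∧ (∀ j, b j * q = b j) ∧ ∑ j, adjoint (b j) * b j = q := by
  intro n
  induction n with
  | zero =>
    intro q hq hq1 hq2 hn
    refine ⟨fun _ => 0, fun j => j.elim0, fun j => j.elim0, fun j => j.elim0, ?_⟩
    rw [Fin.sum_univ_zero]
    rw [Nat.cast_zero, zero_mul] at hn
    exact (nn_eq_zero hq (le_antisymm hn (nn_nonneg q))).symm
  | succ n ih =>
    intro q hq hq1 hq2 hn
    obtain ⟨a, ha, hea, haP, h⟩ := comparison hΓ hP hq hP1 hP2 hq1 hq2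
    rcases h with h | h
    · refine ⟨Fin.cons a fun _ => 0, ?_, ?_, ?_, ?_⟩
      · intro j
        refine Fin.cases ?_ (fun i => ?_) j
        · exact ha
        · exact RA.zero
      · intro j
        refine Fin.cases ?_ (fun i => ?_) j
        · exact hea
        · exact mul_zero _
      · intro j
        refine Fin.cases ?_ (fun i => ?_) j
        · exact haP
        · exact zero_mul _
      · rw [Fin.sum_univ_succ]
        simp only [Fin.cons_zero, Fin.cons_succ, mul_zero, Finset.sum_const_zero, add_zero]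
        exact h
    · have hadj : adjoint (adjoint a * a) = adjoint a * a := by
        rw [adjoint_mul, adjoint_adjoint]
      have hqa : q * adjoint a = adjoint a := by
        have h1 := congrArg adjoint haP
        rwa [adjoint_mul, hq1] at h1
      have hsq : (adjoint a * a) * (adjoint a * a) = adjoint a * a := by
        rw [show (adjoint a * a) * (adjoint a * a) = adjoint a * ((a * adjoint a) * a) by
          simp only [mul_assoc], h, hea]
      have h1 : q * (adjoint a * a) = adjoint a * a := by rw [← mul_assoc, hqa]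
      have h2 : (adjoint a * a) * q = adjoint a * a := by rw [mul_assoc, haP]
      have hq' : RA (q - adjoint a * a) := hq.sub ((ra_adjoint ha).mul ha)
      have hq1' : adjoint (q - adjoint a * a) = q - adjoint a * a := by
        rw [map_sub, hadj, hq1]
      have hq2' : (q - adjoint a * a) * (q - adjoint a * a) = q - adjoint a * a := by
        rw [sub_mul, mul_sub, mul_sub, hq2, h1, h2, hsq, sub_self, sub_zero]
      have hnn : (nn (q - adjoint a * a) : ℂ) = nn q - nn P := by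
        rw [← trA_star_mul, hq1', hq2', trA_sub, trA_comm (ra_adjoint ha) ha, h, ← trA_star_mul,
          ← trA_star_mul, hq1, hq2, hP1, hP2]
      have hnn' : nn (q - adjoint a * a) = nn q - nn P := by exact_mod_cast hnn
      obtain ⟨b, hb1, hb2, hb3, hb4⟩ := ih _ hq' hq1' hq2' (by
        rw [hnn']; push_cast at hn; linarith)
      refine ⟨Fin.cons a b, ?_, ?_, ?_, ?_⟩
      · intro j
        refine Fin.cases ?_ (fun i => ?_) j
        · exact ha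
        · exact hb1 i
      · intro j
        refine Fin.cases ?_ (fun i => ?_) j
        · exact hea
        · exact hb2 i
      · intro j
        refine Fin.cases ?_ (fun i => ?_) j
        · exact haP
        · change b i * q = b i
          have h3 : (q - adjoint a * a) * q = q - adjoint a * a := by
            rw [sub_mul, hq2, h2]
          rw [← hb3 i, mul_assoc, h3]
      · rw [Fin.sum_univ_succ]
        simp only [Fin.cons_zero, Fin.cons_succ]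
        rw [hb4]
        abel

end cover

section parseval

variable {Γ Λ ι : Type} [Group Γ] [Group Λ] [Fintype ι] {t : ℝ}
  {R : Λ → (Ell2 (Γ × ι) →L[ℂ] Ell2 (Γ × ι))}

/-- The coefficients of an operator of the corner. -/
noncomputable def xc (R : Λ → (Ell2 (Γ × ι) →L[ℂ] Ell2 (Γ × ι)))
    (X : Ell2 (Γ × ι) →L[ℂ] Ell2 (Γ × ι)) (v : Λ) : ℂ :=
  ∑ i, ⟪R v (ep i : Ell2 (Γ × ι)), X (ep i)⟫_ℂ

theorem bessel (hR : ARep t R) (X : Ell2 (Γ × ι) →L[ℂ] Ell2 (Γ × ι)) (s : Finset Λ) :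
    ∑ v ∈ s, ‖xc R X v‖ ^ 2 ≤ t * nn X := H967.ar_bessel hR (fun i => X (ep i)) s

theorem sq_ge (t : ℝ) (ht : 0 < t) (c x : ℂ) :
    -(‖x‖ ^ 2 / t) ≤ t * ‖c‖ ^ 2 - 2 * ((starRingEnd ℂ) c * x).re := by
  have h1 : ((starRingEnd ℂ) c * x).re ≤ ‖c‖ * ‖x‖ := by
    refine (Complex.re_le_norm _).trans ?_
    rw [norm_mul, RCLike.norm_conj]
  have h2 : -(‖x‖ ^ 2 / t) ≤ t * ‖c‖ ^ 2 - 2 * (‖c‖ * ‖x‖) := by
    have h3 : 0 ≤ (t * ‖c‖ - ‖x‖) ^ 2 / t := by positivity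
    have h4 : (t * ‖c‖ - ‖x‖) ^ 2 / t = t * ‖c‖ ^ 2 - 2 * (‖c‖ * ‖x‖) + ‖x‖ ^ 2 / t := by
      field_simp
      ring
    rw [h4] at h3
    linarith
  linarith

theorem parseval (hR : AFrame t R) {X : Ell2 (Γ × ι) →L[ℂ] Ell2 (Γ × ι)} (hX : RA X)
    (hXP : R 1 * X * R 1 = X) {ε : ℝ} (hε : 0 < ε) :
    ∃ s : Finset Λ, t * nn X - ε ≤ ∑ v ∈ s, ‖xc R X v‖ ^ 2 := by
  classical
  have ht := hR.pos
  obtain ⟨s, c, hs⟩ := hR.dense X hX hXP (Real.sqrt (ε / t)) (Real.sqrt_pos.mpr (by positivity))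
  refine ⟨s, ?_⟩
  rw [Real.sq_sqrt (by positivity)] at hs
  have h1 : ∀ Z : ι → Ell2 (Γ × ι), ∑ i, ⟪∑ v ∈ s, c v • R v (ep i : Ell2 (Γ × ι)), Z i⟫_ℂ =
      ∑ v ∈ s, (starRingEnd ℂ) (c v) * ∑ i, ⟪R v (ep i : Ell2 (Γ × ι)), Z i⟫_ℂ := by
    intro Z
    simp only [sum_inner, inner_smul_left, Finset.mul_sum]
    rw [Finset.sum_comm]
  have h2 : ∀ v ∈ s, ∑ i, ⟪R v (ep i : Ell2 (Γ × ι)), ∑ w ∈ s, c w • R w (ep i)⟫_ℂ = t * c v := by
    intro v hv
    simp only [inner_sum, inner_smul_right]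
    rw [Finset.sum_comm, Finset.sum_eq_single v]
    · rw [← Finset.mul_sum, H967.ar_orth_self hR.toARep]
      ring
    · intro w _ hw
      rw [← Finset.mul_sum, H967.ar_orth_ne hR.toARep (Ne.symm hw), mul_zero]
    · intro h; exact absurd hv h
  have h3 : ∑ i, ‖∑ v ∈ s, c v • R v (ep i : Ell2 (Γ × ι))‖ ^ 2 = t * ∑ v ∈ s, ‖c v‖ ^ 2 := by
    have h4 : ((∑ i, ‖∑ v ∈ s, c v • R v (ep i : Ell2 (Γ × ι))‖ ^ 2 : ℝ) : ℂ) =
        ((t * ∑ v ∈ s, ‖c v‖ ^ 2 : ℝ) : ℂ) := by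
      have h5 : ((∑ i, ‖∑ v ∈ s, c v • R v (ep i : Ell2 (Γ × ι))‖ ^ 2 : ℝ) : ℂ) =
          ∑ i, ⟪∑ v ∈ s, c v • R v (ep i : Ell2 (Γ × ι)), ∑ v ∈ s, c v • R v (ep i)⟫_ℂ := by
        rw [Complex.ofReal_sum]
        refine Finset.sum_congr rfl fun i _ => ?_
        rw [inner_self_eq_norm_sq_to_K]
        norm_cast
      rw [h5, h1, Complex.ofReal_mul, Complex.ofReal_sum, Finset.mul_sum]
      refine Finset.sum_congr rfl fun v hv => ?_
      rw [h2 v hv, mul_left_comm, mul_comm ((starRingEnd ℂ) (c v)), RCLike.mul_conj]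
      norm_cast
      exact (Complex.ofReal_mul _ _).symm
    exact_mod_cast h4
  have h4 : ∑ i, ‖X (ep i) - ∑ v ∈ s, c v • R v (ep i : Ell2 (Γ × ι))‖ ^ 2 =
      nn X + ∑ v ∈ s, (t * ‖c v‖ ^ 2 - 2 * ((starRingEnd ℂ) (c v) * xc R X v).re) := by
    have h5 : ∀ i, ‖X (ep i) - ∑ v ∈ s, c v • R v (ep i : Ell2 (Γ × ι))‖ ^ 2 =
        ‖X (ep i)‖ ^ 2 - 2 * (⟪∑ v ∈ s, c v • R v (ep i : Ell2 (Γ × ι)), X (ep i)⟫_ℂ).re +
        ‖∑ v ∈ s, c v • R v (ep i : Ell2 (Γ × ι))‖ ^ 2 := by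
      intro i
      rw [nsub, re_inner_symm']
    simp only [h5]
    rw [Finset.sum_add_distrib, Finset.sum_sub_distrib, h3, ← Finset.mul_sum, ← Complex.re_sum,
      h1, Complex.re_sum, Finset.sum_sub_distrib, ← Finset.mul_sum, ← Finset.mul_sum]
    rw [nn]
    simp only [xc]
    ring
  rw [h4] at hs
  have h5 : ∑ v ∈ s, -(‖xc R X v‖ ^ 2 / t) ≤
      ∑ v ∈ s, (t * ‖c v‖ ^ 2 - 2 * ((starRingEnd ℂ) (c v) * xc R X v).re) :=
    Finset.sum_le_sum fun v _ => sq_ge t ht _ _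
  rw [Finset.sum_neg_distrib, ← Finset.sum_div] at h5
  have h6 : nn X - (∑ v ∈ s, ‖xc R X v‖ ^ 2) / t ≤ ε / t := by linarith
  have h7 := mul_le_mul_of_nonneg_left h6 ht.le
  rw [mul_sub, mul_div_cancel₀ _ ht.ne', mul_div_cancel₀ _ ht.ne'] at h7
  linarith

end parseval

section dense

variable {Γ ι : Type} [Group Γ]

/-- Closed conditions hold on `ℓ²` if they hold on the vectors `T ε_0`. -/
theorem dense_ra (i0 : ι) {p : Ell2 (Γ × ι) → Prop} (hp : IsClosed {ξ | p ξ})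
    (h : ∀ T : Ell2 (Γ × ι) →L[ℂ] Ell2 (Γ × ι), RA T → p (T (ep i0))) (ξ : Ell2 (Γ × ι)) : p ξ := by
  classical
  have h1 : Tendsto (fun s : Finset (Γ × ι) => ∑ x ∈ s, ξ x • (dl x : Ell2 (Γ × ι))) atTop (𝓝 ξ) :=
    hasSum_dl ξ
  refine hp.mem_of_tendsto h1 (Eventually.of_forall fun s => ?_)
  have h2 := h (∑ x ∈ s, ξ x • ex i0 x.2 x.1) (RA.sum _ fun x _ => (ex_ra _ _ _).smul _)
  rw [ContinuousLinearMap.sum_apply] at h2
  simp only [smul_apply, ex_ep_self] at h2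
  exact h2

end dense

section inverse

variable {Γ Λ ι : Type} [Group Γ] [Group Λ] [Fintype ι] {t : ℝ}
  {R : Λ → (Ell2 (Γ × ι) →L[ℂ] Ell2 (Γ × ι))}

/-- The projection onto the slot `i0`. -/
noncomputable def slot [DecidableEq ι] (i0 : ι) : Ell2 (Γ × ι) →L[ℂ] Ell2 (Γ × ι) := ex i0 i0 1

theorem slot_apply [DecidableEq ι] (i0 : ι) (ξ : Ell2 (Γ × ι)) (x : Γ × ι) :
    slot i0 ξ x = if x.2 = i0 then ξ x else 0 := by
  rw [slot, ex_apply]
  by_cases h : x.2 = i0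
  · rw [if_pos h, if_pos h, inv_one, mul_one, ← h]
  · rw [if_neg h, if_neg h]

theorem slot_adj [DecidableEq ι] (i0 : ι) :
    adjoint (slot i0 : Ell2 (Γ × ι) →L[ℂ] Ell2 (Γ × ι)) = slot i0 := by
  rw [slot, adjoint_ex, inv_one]

theorem slot_sq [DecidableEq ι] (i0 : ι) :
    (slot i0 : Ell2 (Γ × ι) →L[ℂ] Ell2 (Γ × ι)) * slot i0 = slot i0 := by
  ext ξ x
  rw [mul_ap, slot_apply, slot_apply]
  split_ifs <;> rfl

theorem slot_ep [DecidableEq ι] (i0 : ι) : slot i0 (ep i0 : Ell2 (Γ × ι)) = ep i0 := by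
  rw [slot, ex_ep_self]
  rfl

theorem slot_ep_ne [DecidableEq ι] {i0 i : ι} (h : i ≠ i0) :
    slot i0 (ep i : Ell2 (Γ × ι)) = 0 := ex_ep_ne h _ _

theorem nn_slot [DecidableEq ι] (i0 : ι) {T : Ell2 (Γ × ι) →L[ℂ] Ell2 (Γ × ι)}
    (hT : T * slot i0 = T) : nn T = ‖T (ep i0)‖ ^ 2 := by
  rw [nn, Finset.sum_eq_single i0]
  · intro i _ hi
    rw [← hT, mul_ap, slot_ep_ne hi, map_zero, norm_zero, zero_pow two_ne_zero]
  · intro h; exact absurd (Finset.mem_univ _) h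

/-- The coefficient identity. -/
theorem coef_eq [DecidableEq ι] (hR : ARep t R) {i0 : ι}
    {T b : Ell2 (Γ × ι) →L[ℂ] Ell2 (Γ × ι)} (hT : RA T) (hb : RA b)
    (hTs : T * slot i0 = T) (v : Λ) :
    ⟪R v (b (ep i0 : Ell2 (Γ × ι))), T (ep i0)⟫_ℂ = xc R (T * adjoint b) v := by
  have h1 : ⟪R v (b (ep i0 : Ell2 (Γ × ι))), T (ep i0)⟫_ℂ = trA (adjoint (R v * b) * T) := by
    rw [trA, Finset.sum_eq_single i0]
    · rw [mul_ap, adjoint_inner_right, mul_ap]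
    · intro i _ hi
      rw [mul_ap, ← hTs, mul_ap, slot_ep_ne hi, map_zero, map_zero, inner_zero_right]
    · intro h; exact absurd (Finset.mem_univ _) h
  rw [h1, adjoint_mul, mul_assoc, trA_comm (ra_adjoint hb) ((ra_adjoint (hR.ra v)).mul hT),
    mul_assoc, trA, xc]
  refine Finset.sum_congr rfl fun i _ => ?_
  rw [mul_ap, adjoint_inner_right]

/-- The projected coefficient identity. -/
theorem xc_proj (hR : ARep t R) (X : Ell2 (Γ × ι) →L[ℂ] Ell2 (Γ × ι)) (v : Λ) :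
    xc R (R 1 * X) v = xc R X v := by
  refine Finset.sum_congr rfl fun i _ => ?_
  rw [mul_ap, hR.inner_right, inv_one, hR.app, _root_.one_mul]

/-- The Parseval family `(v, j) ↦ R_v b_j ε_0 / √t`. -/
noncomputable def pf {k : ℕ} (t : ℝ) (R : Λ → (Ell2 (Γ × ι) →L[ℂ] Ell2 (Γ × ι)))
    (b : Fin k → (Ell2 (Γ × ι) →L[ℂ] Ell2 (Γ × ι))) (i0 : ι) (x : Λ × Fin k) : Ell2 (Γ × ι) :=
  (((Real.sqrt t)⁻¹ : ℝ) : ℂ) • R x.1 (b x.2 (ep i0))

theorem sq_pf {k : ℕ} (ht : 0 < t) (b : Fin k → (Ell2 (Γ × ι) →L[ℂ] Ell2 (Γ × ι))) (i0 : ι)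
    (x : Λ × Fin k) (ξ : Ell2 (Γ × ι)) :
    ‖⟪pf t R b i0 x, ξ⟫_ℂ‖ ^ 2 = ‖⟪R x.1 (b x.2 (ep i0)), ξ⟫_ℂ‖ ^ 2 / t := by
  rw [pf, inner_smul_left, norm_mul, mul_pow, Complex.conj_ofReal, Complex.norm_real,
    Real.norm_eq_abs, sq_abs, inv_pow, Real.sq_sqrt ht.le]
  ring

/-- `∑_j nn (X b_j*) = nn X`. -/
theorem sum_nn [DecidableEq ι] {k : ℕ} {b : Fin k → (Ell2 (Γ × ι) →L[ℂ] Ell2 (Γ × ι))} {i0 : ι}
    (hb : ∀ j, RA (b j)) (hsum : ∑ j, adjoint (b j) * b j = slot i0)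
    {X : Ell2 (Γ × ι) →L[ℂ] Ell2 (Γ × ι)} (hX : RA X) (hXs : X * slot i0 = X) :
    ∑ j, nn (X * adjoint (b j)) = nn X := by
  have h1 : ((∑ j, nn (X * adjoint (b j)) : ℝ) : ℂ) = (nn X : ℂ) := by
    rw [Complex.ofReal_sum]
    have h2 : ∀ j, (nn (X * adjoint (b j)) : ℂ) = trA (adjoint X * X * (adjoint (b j) * b j)) := by
      intro j
      rw [← trA_star_mul, adjoint_mul, adjoint_adjoint]
      rw [show b j * adjoint X * (X * adjoint (b j)) = b j * (adjoint X * X * adjoint (b j)) by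
        simp only [mul_assoc]]
      rw [trA_comm (hb j) (((ra_adjoint hX).mul hX).mul (ra_adjoint (hb j)))]
      simp only [mul_assoc]
    simp only [h2]
    have h3 : ∑ j, trA (adjoint X * X * (adjoint (b j) * b j)) =
        trA (∑ j, adjoint X * X * (adjoint (b j) * b j)) := by
      simp only [trA, ContinuousLinearMap.sum_apply, inner_sum]
      rw [Finset.sum_comm]
    rw [h3, ← Finset.mul_sum, hsum, mul_assoc, hXs, trA_star_mul]
  exact_mod_cast h1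

theorem bes_pf [DecidableEq ι] (hR : ARep t R) {k : ℕ}
    {b : Fin k → (Ell2 (Γ × ι) →L[ℂ] Ell2 (Γ × ι))} {i0 : ι}
    (hb : ∀ j, RA (b j)) (hsum : ∑ j, adjoint (b j) * b j = slot i0) :
    Bes 1 (pf t R b i0) := by
  classical
  intro s
  refine dense_ra i0 (p := fun v => ∑ x ∈ s, ‖⟪pf t R b i0 x, v⟫_ℂ‖ ^ 2 ≤ 1 ^ 2 * ‖v‖ ^ 2) ?_ ?_
  · exact isClosed_le (by fun_prop) (by fun_prop)
  · intro T hT
    obtain ⟨T₀, hT₀⟩ : ∃ T₀, T₀ = T * slot i0 := ⟨_, rfl⟩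
    have h0 : RA T₀ := by rw [hT₀]; exact hT.mul (ex_ra _ _ _)
    have h1 : T₀ * slot i0 = T₀ := by rw [hT₀, mul_assoc, slot_sq]
    have h2 : T (ep i0) = T₀ (ep i0) := by rw [hT₀, mul_ap, slot_ep]
    rw [h2, one_pow, one_mul]
    have h3 : s ⊆ (s.image Prod.fst) ×ˢ (Finset.univ : Finset (Fin k)) := by
      intro p hp
      rw [Finset.mem_product]
      exact ⟨Finset.mem_image_of_mem _ hp, Finset.mem_univ _⟩
    refine (Finset.sum_le_sum_of_subset_of_nonneg h3 fun _ _ _ => by positivity).trans ?_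
    rw [Finset.sum_product_right]
    have h4 : ∀ j ∈ (Finset.univ : Finset (Fin k)), ∑ v ∈ s.image Prod.fst,
        ‖⟪pf t R b i0 (v, j), T₀ (ep i0)⟫_ℂ‖ ^ 2 ≤ nn (T₀ * adjoint (b j)) := by
      intro j _
      have h5 := bessel hR (T₀ * adjoint (b j)) (s.image Prod.fst)
      have h6 : ∑ v ∈ s.image Prod.fst, ‖⟪pf t R b i0 (v, j), T₀ (ep i0)⟫_ℂ‖ ^ 2 =
          (∑ v ∈ s.image Prod.fst, ‖xc R (T₀ * adjoint (b j)) v‖ ^ 2) / t := by
        rw [Finset.sum_div]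
        refine Finset.sum_congr rfl fun v _ => ?_
        rw [sq_pf hR.pos, coef_eq hR h0 (hb j) h1]
      rw [h6, div_le_iff₀ hR.pos]
      linarith
    refine (Finset.sum_le_sum h4).trans ?_
    rw [sum_nn hb hsum h0 h1, nn_slot i0 h1]

variable {k : ℕ} {b : Fin k → (Ell2 (Γ × ι) →L[ℂ] Ell2 (Γ × ι))} {i0 : ι}

theorem an_proj (hR : ARep t R) (h : Bes 1 (pf t R b i0)) (ξ : Ell2 (Γ × ι)) :
    anOp h (R 1 ξ) = anOp h ξ := by
  apply ext_inner_dl
  intro x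
  rw [anOp_apply, anOp_apply, hR.inner_right, inv_one, pf, map_smul, hR.app, _root_.one_mul]

theorem an_le (h : Bes 1 (pf t R b i0)) (ξ : Ell2 (Γ × ι)) : ‖anOp h ξ‖ ≤ ‖ξ‖ := by
  have h1 : ‖anOp h‖ ≤ |1| := LinearMap.mkContinuous_norm_le _ (abs_nonneg _) _
  rw [abs_one] at h1
  calc _ ≤ ‖anOp h‖ * ‖ξ‖ := (anOp h).le_opNorm _
    _ ≤ 1 * ‖ξ‖ := by gcongr
    _ = ‖ξ‖ := _root_.one_mul _

/-- The Parseval inequality. -/
theorem an_ge [DecidableEq ι] (hR : AFrame t R) (h : Bes 1 (pf t R b i0)) (hb : ∀ j, RA (b j))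
    (hPb : ∀ j, R 1 * b j = b j) (hsum : ∑ j, adjoint (b j) * b j = slot i0)
    (ξ : Ell2 (Γ × ι)) : ‖R 1 ξ‖ ^ 2 ≤ ‖anOp h ξ‖ ^ 2 := by
  classical
  have hRr := hR.toARep
  refine dense_ra i0 (p := fun ξ => ‖R 1 ξ‖ ^ 2 ≤ ‖anOp h ξ‖ ^ 2) ?_ ?_ ξ
  · exact isClosed_le (by fun_prop) (by fun_prop)
  · intro T hT
    obtain ⟨T₀, hT₀⟩ : ∃ T₀, T₀ = T * slot i0 := ⟨_, rfl⟩
    have h0 : RA T₀ := by rw [hT₀]; exact hT.mul (ex_ra _ _ _)
    have h1 : T₀ * slot i0 = T₀ := by rw [hT₀, mul_assoc, slot_sq]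
    have h2 : T (ep i0) = T₀ (ep i0) := by rw [hT₀, mul_ap, slot_ep]
    rw [h2]
    obtain ⟨X, hX⟩ : ∃ X : Fin k → (Ell2 (Γ × ι) →L[ℂ] Ell2 (Γ × ι)),
        X = fun j => R 1 * T₀ * adjoint (b j) := ⟨_, rfl⟩
    have hXj : ∀ j, X j = R 1 * T₀ * adjoint (b j) := fun j => by rw [hX]
    have hXR : ∀ j, RA (X j) := fun j => by
      rw [hXj]; exact ((hRr.ra 1).mul h0).mul (ra_adjoint (hb j))
    have hXP : ∀ j, R 1 * X j * R 1 = X j := fun j => by
      have h3 : adjoint (b j) * R 1 = adjoint (b j) := by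
        have h4 := congrArg adjoint (hPb j)
        rwa [adjoint_mul, hRr.adj_one] at h4
      rw [hXj, show R 1 * (R 1 * T₀ * adjoint (b j)) * R 1 =
        (R 1 * R 1) * T₀ * (adjoint (b j) * R 1) by simp only [mul_assoc], h3, hRr.one_mul_one]
    have hXc : ∀ j v, xc R (X j) v = ⟪R v (b j (ep i0 : Ell2 (Γ × ι))), T₀ (ep i0)⟫_ℂ := by
      intro j v
      rw [coef_eq hRr h0 (hb j) h1, hXj, mul_assoc, xc_proj hRr]
    have hR0 : RA (R 1 * T₀) := (hRr.ra 1).mul h0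
    have hR1 : R 1 * T₀ * slot i0 = R 1 * T₀ := by rw [mul_assoc, h1]
    have hnn : ‖R 1 (T₀ (ep i0))‖ ^ 2 = ∑ j, nn (X j) := by
      simp only [hXj]
      rw [sum_nn hb hsum hR0 hR1, nn_slot i0 hR1, mul_ap]
    rw [hnn]
    refine le_of_forall_pos_le_add fun ε hε => ?_
    obtain ⟨δ, hδ⟩ : ∃ δ : ℝ, δ = ε * t / (k + 1) := ⟨_, rfl⟩
    have hδ0 : 0 < δ := by
      have := hR.pos
      rw [hδ]; positivity
    choose s hs using fun j => parseval hR (hXR j) (hXP j) hδ0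
    obtain ⟨S, hS⟩ : ∃ S : Finset Λ, S = Finset.univ.biUnion s := ⟨_, rfl⟩
    have h5 : ∀ j ∈ (Finset.univ : Finset (Fin k)), nn (X j) ≤
        ∑ v ∈ S, ‖anOp h (T₀ (ep i0)) (v, j)‖ ^ 2 + δ / t := by
      intro j _
      have h6 : ∑ v ∈ S, ‖anOp h (T₀ (ep i0)) (v, j)‖ ^ 2 = (∑ v ∈ S, ‖xc R (X j) v‖ ^ 2) / t := by
        rw [Finset.sum_div]
        refine Finset.sum_congr rfl fun v _ => ?_
        rw [anOp_apply, sq_pf hR.pos, hXc]
      have h7 : ∑ v ∈ s j, ‖xc R (X j) v‖ ^ 2 ≤ ∑ v ∈ S, ‖xc R (X j) v‖ ^ 2 := by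
        refine Finset.sum_le_sum_of_subset_of_nonneg ?_ fun _ _ _ => by positivity
        rw [hS]
        exact Finset.subset_biUnion_of_mem s (Finset.mem_univ j)
      rw [h6, ← add_div, le_div_iff₀ hR.pos]
      have h8 := hs j
      linarith
    have h9 := Finset.sum_le_sum h5
    rw [Finset.sum_add_distrib, Finset.sum_const, Finset.card_univ, Fintype.card_fin,
      ← Finset.sum_product_right' S Finset.univ
        (fun v j => ‖anOp h (T₀ (ep i0)) (v, j)‖ ^ 2)] at h9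
    have h10 : ∑ x ∈ S ×ˢ (Finset.univ : Finset (Fin k)), ‖anOp h (T₀ (ep i0)) (x.1, x.2)‖ ^ 2 ≤
        ‖anOp h (T₀ (ep i0))‖ ^ 2 := sum_sq_le _ _
    have h11 : k • (δ / t) ≤ ε := by
      have := hR.pos
      rw [nsmul_eq_mul, hδ, show (k : ℝ) * (ε * t / (k + 1) / t) = ε * (k / (k + 1)) by
        field_simp]
      have h12 : (k : ℝ) / (k + 1) ≤ 1 := by
        rw [div_le_one (by positivity)]; linarith
      calc ε * (k / (k + 1)) ≤ ε * 1 := by gcongr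
        _ = ε := _root_.mul_one _
    linarith

/-- `W* W = P`. -/
theorem an_star_an [DecidableEq ι] (hR : AFrame t R) (h : Bes 1 (pf t R b i0))
    (hb : ∀ j, RA (b j)) (hPb : ∀ j, R 1 * b j = b j)
    (hsum : ∑ j, adjoint (b j) * b j = slot i0) : adjoint (anOp h) ∘L anOp h = R 1 := by
  have hRr := hR.toARep
  have h1 : ∀ ξ, ‖anOp h ξ‖ ^ 2 = ‖R 1 ξ‖ ^ 2 := by
    intro ξ
    refine le_antisymm ?_ (an_ge hR h hb hPb hsum ξ)
    rw [← an_proj hRr h]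
    have := an_le h (R 1 ξ)
    gcongr
  have h2 : ((adjoint (anOp h) ∘L anOp h : Ell2 (Γ × ι) →L[ℂ] Ell2 (Γ × ι)) :
      Ell2 (Γ × ι) →ₗ[ℂ] Ell2 (Γ × ι)) = (R 1 : Ell2 (Γ × ι) →ₗ[ℂ] Ell2 (Γ × ι)) := by
    rw [← ext_inner_map]
    intro ξ
    have h3 : ⟪adjoint (anOp h) (anOp h ξ), ξ⟫_ℂ = ⟪R 1 ξ, ξ⟫_ℂ := by
      rw [adjoint_inner_left, inner_self_eq_norm_sq_to_K]
      have h4 : ⟪R 1 ξ, ξ⟫_ℂ = ⟪R 1 ξ, R 1 ξ⟫_ℂ := by
        rw [hRr.inner_left 1 ξ (R 1 ξ), inv_one, hRr.app, _root_.one_mul, hRr.inner_left, inv_one]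
      rw [h4, inner_self_eq_norm_sq_to_K]
      exact_mod_cast h1 ξ
    exact h3
  ext1 ξ
  exact LinearMap.congr_fun h2 ξ

end inverse

/-- **Inversion of amplifications.** -/
theorem arep_inv {Γ Λ ι : Type} [Group Γ] [Group Λ] [Fintype ι] {t : ℝ}
    {R : Λ → (Ell2 (Γ × ι) →L[ℂ] Ell2 (Γ × ι))}
    (hΓ : ∀ g : Γ, g ≠ 1 → Set.Infinite {y | ∃ h, y = h * g * h⁻¹}) (hR : AFrame t R) :
    ∃ (k : ℕ) (R' : Γ → (Ell2 (Λ × Fin k) →L[ℂ] Ell2 (Λ × Fin k))), ARep t⁻¹ R' := by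
  classical
  have hRr := hR.toARep
  have ht := hR.pos
  have hι : Nonempty ι := by
    by_contra hne
    rw [not_nonempty_iff] at hne
    have h1 := hR.tr_one
    rw [Finset.univ_eq_empty, Finset.sum_empty] at h1
    exact ht.ne (by exact_mod_cast h1)
  obtain ⟨i0⟩ := hι
  have hnn1 : nn (R 1) = t := by
    have h1 : (nn (R 1) : ℂ) = t := by
      rw [← trA_star_mul, hRr.adj_one, hRr.one_mul_one]
      exact hR.tr_one
    exact_mod_cast h1
  obtain ⟨k, hk⟩ := exists_nat_ge (1 / t)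
  obtain ⟨b, hb, hPb, hbs, hsum⟩ := exists_cover hΓ (hRr.ra 1) hRr.adj_one hRr.one_mul_one k
    (slot i0) (ex_ra _ _ _) (slot_adj i0) (slot_sq i0) (by
      rw [nn_slot i0 (slot_sq i0), slot_ep, ep, norm_dl, one_pow, hnn1]
      rw [div_le_iff₀ ht] at hk
      exact hk)
  have hB := bes_pf hRr hb hsum
  obtain ⟨W, hW⟩ : ∃ W, W = anOp hB := ⟨_, rfl⟩
  have hWW : ∀ ξ, adjoint W (W ξ) = R 1 ξ := fun ξ => by
    rw [hW]
    exact DFunLike.congr_fun (an_star_an hR hB hb hPb hsum) ξ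
  have hWP : ∀ ξ, W (R 1 ξ) = W ξ := fun ξ => by rw [hW]; exact an_proj hRr hB ξ
  have hWR : ∀ u ξ, W (R u ξ) = lx u (W ξ) := by
    intro u ξ
    apply ext_inner_dl
    intro x
    rw [lx_apply, hW, anOp_apply, anOp_apply, hRr.inner_right, pf, map_smul, hRr.app, pf]
  have hWR' : ∀ u η, R u (adjoint W η) = adjoint W (lx u η) := by
    intro u η
    refine ext_inner_left ℂ fun ζ => ?_
    rw [hRr.inner_right, adjoint_inner_right, adjoint_inner_right, hWR, inner_lx_right]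
  have hWd : ∀ j, adjoint W (ep j : Ell2 (Λ × Fin k)) = (((Real.sqrt t)⁻¹ : ℝ) : ℂ) • b j (ep i0) := by
    intro j
    have h1 : adjoint W (ep j : Ell2 (Λ × Fin k)) = pf t R b i0 (1, j) := by
      rw [hW]; exact opOf_dl hB (1, j)
    rw [h1, pf, ← mul_ap, hPb]
  refine ⟨k, fun g => W ∘L lx g ∘L adjoint W, ?_⟩
  have hap : ∀ g η, (W ∘L lx g ∘L adjoint W) η = W (lx g (adjoint W η)) := fun g η => rfl
  have htr : ∀ g, ∑ j, ⟪(ep j : Ell2 (Λ × Fin k)), (W ∘L lx g ∘L adjoint W) (ep j)⟫_ℂ =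
      (t : ℂ)⁻¹ * ⟪(ep i0 : Ell2 (Γ × ι)), lx g (ep i0)⟫_ℂ := by
    intro g
    have h1 : ∀ j, ⟪(ep j : Ell2 (Λ × Fin k)), (W ∘L lx g ∘L adjoint W) (ep j)⟫_ℂ =
        (t : ℂ)⁻¹ * ⟪(adjoint (b j) * b j) (ep i0 : Ell2 (Γ × ι)), lx g (ep i0)⟫_ℂ := by
      intro j
      rw [hap, ← adjoint_inner_left, hWd, map_smul, inner_smul_left, inner_smul_right,
        Complex.conj_ofReal, ← mul_assoc, ← Complex.ofReal_mul, ← mul_inv,
        Real.mul_self_sqrt ht.le, Complex.ofReal_inv]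
      congr 1
      rw [mul_ap, adjoint_inner_left, (hb j).app]
    simp only [h1]
    rw [← Finset.mul_sum, ← sum_inner, ← ContinuousLinearMap.sum_apply, hsum, slot_ep]
  exact
    { ra := fun g u => by
        apply ContinuousLinearMap.ext
        intro η
        change (W ∘L lx g ∘L adjoint W) (lx u η) = lx u ((W ∘L lx g ∘L adjoint W) η)
        rw [hap, hap, ← hWR', ← hWR, hRr.lx]
      mul := fun g h => by
        ext1 η
        rw [mul_ap, hap, hap, hap, hWW, ← hRr.lx, hWP, lx_mul, mul_ap]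
      adj := fun g => by
        refine ContinuousLinearMap.ext fun η => ext_inner_left ℂ fun ζ => ?_
        rw [adjoint_inner_right, hap, hap]
        rw [← adjoint_inner_right W, inner_lx_left, adjoint_inner_left]
      pos := inv_pos.mpr ht
      tr_one := by
        rw [htr, lx_one, ContinuousLinearMap.one_apply, inner_self_eq_norm_sq_to_K, ep, norm_dl]
        simp
      tr_zero := fun g hg => by
        rw [htr, lx_ep, ep, inner_dl, dl_ne (fun h => hg (Prod.mk.inj h).1.symm), mul_zero] }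

end Vale.Agent.P092.H377
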