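import Vale.Agent.P092.H377.Summ

/-!
P092 (helper377): for a map `m : G → M_n(ℝ)`, multiplicative up to sign, with `det² = 1` and
finite balls (a discrete subgroup of `SL_n(ℝ)` or `PSL_n(ℝ)`, up to finite kernel), the series
`∑_{b ∈ G} ‖m b‖^{-2M}` converges for an explicit `M`.
-/

namespace Vale.Agent.P092.H377

open Matrix

/-- Square of the Hilbert-Schmidt norm. -/
def hsn {n : ℕ} (A : Matrix (Fin n) (Fin n) ℝ) : ℝ := ∑ i, ∑ j, A i j ^ 2

variable {n : ℕ}

lemma hsn_nn (A : Matrix (Fin n) (Fin n) ℝ) : 0 ≤ hsn A :=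
  Finset.sum_nonneg fun _ _ => Finset.sum_nonneg fun _ _ => sq_nonneg _

lemma sq_le_hsn (A : Matrix (Fin n) (Fin n) ℝ) (i j : Fin n) : A i j ^ 2 ≤ hsn A := by
  unfold hsn
  calc A i j ^ 2 ≤ ∑ j, A i j ^ 2 :=
        Finset.single_le_sum (f := fun j => A i j ^ 2) (fun _ _ => sq_nonneg _) (Finset.mem_univ j)
    _ ≤ _ := Finset.single_le_sum (f := fun i => ∑ j, A i j ^ 2)
          (fun _ _ => Finset.sum_nonneg fun _ _ => sq_nonneg _) (Finset.mem_univ i)

lemma hsn_mul_le (A B : Matrix (Fin n) (Fin n) ℝ) : hsn (A * B) ≤ hsn A * hsn B := by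
  have h : ∀ i j, (∑ k, A i k * B k j) ^ 2 ≤ (∑ k, A i k ^ 2) * (∑ k, B k j ^ 2) :=
    fun i j => Finset.sum_mul_sq_le_sq_mul_sq _ _ _
  calc hsn (A * B) = ∑ i, ∑ j, (∑ k, A i k * B k j) ^ 2 := by simp only [hsn, Matrix.mul_apply]
    _ ≤ ∑ i, ∑ j, (∑ k, A i k ^ 2) * (∑ k, B k j ^ 2) :=
        Finset.sum_le_sum fun i _ => Finset.sum_le_sum fun j _ => h i j
    _ = hsn A * hsn B := by
        simp only [hsn]
        rw [Finset.sum_comm (f := fun i j => B i j ^ 2), Finset.sum_mul]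
        exact Finset.sum_congr rfl fun i _ => (Finset.mul_sum _ _ _).symm

lemma hsn_neg (A : Matrix (Fin n) (Fin n) ℝ) : hsn (-A) = hsn A := by
  simp [hsn]

lemma hsn_one : hsn (1 : Matrix (Fin n) (Fin n) ℝ) = n := by
  simp [hsn, Matrix.one_apply]

lemma hsn_le_add (A B : Matrix (Fin n) (Fin n) ℝ) : hsn A ≤ 2 * hsn (A - B) + 2 * hsn B := by
  have h : ∀ i j, A i j ^ 2 ≤ 2 * (A - B) i j ^ 2 + 2 * B i j ^ 2 := by
    intro i j
    rw [Matrix.sub_apply]
    nlinarith [sq_nonneg (A i j - B i j - B i j)]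
  calc hsn A = ∑ i, ∑ j, A i j ^ 2 := rfl
    _ ≤ ∑ i, ∑ j, (2 * (A - B) i j ^ 2 + 2 * B i j ^ 2) :=
        Finset.sum_le_sum fun i _ => Finset.sum_le_sum fun j _ => h i j
    _ = _ := by simp only [hsn, Finset.mul_sum, Finset.sum_add_distrib]

/-- Square of the determinant against the Hilbert-Schmidt norm. -/
lemma det_sq_le (A : Matrix (Fin n) (Fin n) ℝ) : A.det ^ 2 ≤ (n.factorial : ℝ) ^ 2 * hsn A ^ n := by
  have h0 := hsn_nn A
  have he : ∀ i j, |A i j| ≤ Real.sqrt (hsn A) := by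
    intro i j
    rw [← Real.sqrt_sq_eq_abs]
    exact Real.sqrt_le_sqrt (sq_le_hsn A i j)
  have h1 : |A.det| ≤ (n.factorial : ℝ) * Real.sqrt (hsn A) ^ n := by
    rw [Matrix.det_apply]
    refine (Finset.abs_sum_le_sum_abs _ _).trans ?_
    have h2 : ∀ σ ∈ (Finset.univ : Finset (Equiv.Perm (Fin n))),
        |Equiv.Perm.sign σ • ∏ i, A (σ i) i| ≤ Real.sqrt (hsn A) ^ n := by
      intro σ _
      have h3 : |Equiv.Perm.sign σ • ∏ i, A (σ i) i| = ∏ i, |A (σ i) i| := by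
        rw [← Finset.abs_prod]
        rcases Int.units_eq_one_or (Equiv.Perm.sign σ) with h | h <;> simp [h]
      rw [h3]
      calc ∏ i, |A (σ i) i| ≤ ∏ _i : Fin n, Real.sqrt (hsn A) :=
            Finset.prod_le_prod (fun i _ => abs_nonneg _) fun i _ => he _ _
        _ = Real.sqrt (hsn A) ^ n := by simp
    refine (Finset.sum_le_card_nsmul _ _ _ h2).trans (le_of_eq ?_)
    simp [Fintype.card_perm]
  calc A.det ^ 2 = |A.det| ^ 2 := (sq_abs _).symm
    _ ≤ ((n.factorial : ℝ) * Real.sqrt (hsn A) ^ n) ^ 2 :=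
        pow_le_pow_left₀ (abs_nonneg _) h1 2
    _ = (n.factorial : ℝ) ^ 2 * hsn A ^ n := by
        rw [mul_pow, ← pow_mul, mul_comm n 2, pow_mul, Real.sq_sqrt h0]

/-- The adjugate: each entry is a determinant. -/
lemma hsn_adj_le (A : Matrix (Fin n) (Fin n) ℝ) :
    hsn A.adjugate ≤ (n : ℝ) ^ 2 * ((n.factorial : ℝ) ^ 2 * (hsn A + 1) ^ n) := by
  have h : ∀ i j, A.adjugate i j ^ 2 ≤ (n.factorial : ℝ) ^ 2 * (hsn A + 1) ^ n := by
    intro i j
    rw [Matrix.adjugate_apply]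
    refine (det_sq_le _).trans (mul_le_mul_of_nonneg_left ?_ (by positivity))
    refine pow_le_pow_left₀ (hsn_nn _) ?_ n
    unfold hsn
    have h1 : ∀ k, ∑ l, (A.updateRow j (Pi.single i 1)) k l ^ 2 ≤
        ∑ l, A k l ^ 2 + if k = j then 1 else 0 := by
      intro k
      by_cases hk : k = j
      · subst hk
        simp only [Matrix.updateRow_self, if_true]
        have : ∑ l, (Pi.single i (1 : ℝ) : Fin n → ℝ) l ^ 2 = 1 := by
          simp [Pi.single_apply]
        rw [this]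
        have := Finset.sum_nonneg (fun l (_ : l ∈ Finset.univ) => sq_nonneg (A k l))
        linarith
      · simp only [Matrix.updateRow_ne hk, if_neg hk, add_zero]
        exact le_refl _
    calc ∑ k, ∑ l, (A.updateRow j (Pi.single i 1)) k l ^ 2
        ≤ ∑ k, (∑ l, A k l ^ 2 + if k = j then 1 else 0) := Finset.sum_le_sum fun k _ => h1 k
      _ = _ := by rw [Finset.sum_add_distrib]; simp
  calc hsn A.adjugate ≤ ∑ _i : Fin n, ∑ _j : Fin n, (n.factorial : ℝ) ^ 2 * (hsn A + 1) ^ n :=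
        Finset.sum_le_sum fun i _ => Finset.sum_le_sum fun j _ => h i j
    _ = _ := by simp; ring

lemma sq_prod_summable (n : ℕ) :
    Summable (fun f : Fin n → Fin n → ℤ => ∏ i, ∏ j, (max 1 ((f i j : ℝ) ^ 2))⁻¹) := by
  have t1 := summable_pi _ (fun m : ℤ => (by positivity : (0:ℝ) ≤ (max 1 ((m : ℝ) ^ 2))⁻¹))
    summable_h n
  exact summable_pi _ (fun f : Fin n → ℤ =>
    (Finset.prod_nonneg fun i _ => by positivity :
      (0:ℝ) ≤ ∏ i, (max 1 ((f i : ℝ) ^ 2))⁻¹)) t1 n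

/-- The exponent. -/
def expo (n : ℕ) : ℕ := (2 * n + 1) * n * n + 2

/-- Main statement. -/
theorem summable_hsn {G : Type*} [Group G] (m : G → Matrix (Fin n) (Fin n) ℝ)
    (hmul : ∀ g h, m (g * h) = m g * m h ∨ m (g * h) = -(m g * m h))
    (hdet : ∀ g, (m g).det ^ 2 = 1)
    (fin : ∀ R : ℝ, {g : G | hsn (m g) ≤ R}.Finite) :
    Summable (fun b : G => (hsn (m b) ^ expo n)⁻¹) := by
  classical
  set nf : ℝ := (n.factorial : ℝ) ^ 2 with hnf
  have hnf1 : 1 ≤ nf := by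
    rw [hnf]
    have : (1 : ℝ) ≤ (n.factorial : ℝ) := by exact_mod_cast n.factorial_pos
    nlinarith
  -- lower bound for the norm
  obtain ⟨c₀, hc₀, hc₁, hr⟩ : ∃ c₀ : ℝ, 0 < c₀ ∧ c₀ ≤ 1 ∧ ∀ b, c₀ ≤ hsn (m b) ∨ n = 0 := by
    refine ⟨nf⁻¹, by positivity, inv_le_one_of_one_le₀ hnf1, fun b => ?_⟩
    rcases Nat.eq_zero_or_pos n with h0 | h0
    · exact Or.inr h0
    · left
      have h1 := det_sq_le (m b)
      rw [hdet, ← hnf] at h1
      by_cases h2 : hsn (m b) ≤ 1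
      · have h3 : hsn (m b) ^ n ≤ hsn (m b) := by
          calc hsn (m b) ^ n ≤ hsn (m b) ^ 1 := pow_le_pow_of_le_one (hsn_nn _) h2 h0
            _ = hsn (m b) := pow_one _
        rw [inv_le_iff_one_le_mul₀ (by positivity)]
        nlinarith
      · push Not at h2
        exact (inv_le_one_of_one_le₀ hnf1).trans h2.le
  rcases Nat.eq_zero_or_pos n with hn0 | hn0
  · -- `n = 0`: the group is finite
    have hall : {g : G | hsn (m g) ≤ 0} = Set.univ := by
      ext g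
      subst hn0
      simp [hsn]
    have hfinG : (Set.univ : Set G).Finite := hall ▸ fin 0
    have : Finite G := Set.finite_univ_iff.1 hfinG
    exact summable_of_hasFiniteSupport (Set.toFinite _)
  have hr' : ∀ b, c₀ ≤ hsn (m b) := fun b => (hr b).resolve_right (by omega)
  -- the inverse
  have hinv : ∀ b, ∃ B : Matrix (Fin n) (Fin n) ℝ, B * m b = 1 ∧
      hsn B ≤ (n : ℝ) ^ 2 * (nf * (hsn (m b) + 1) ^ n) := by
    intro b
    refine ⟨(m b).det • (m b).adjugate, ?_, ?_⟩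
    · rw [Matrix.smul_mul, Matrix.adjugate_mul, smul_smul, ← sq, hdet, one_smul]
    · have : hsn ((m b).det • (m b).adjugate) = hsn (m b).adjugate := by
        simp only [hsn, Matrix.smul_apply, smul_eq_mul, mul_pow, hdet, one_mul]
      rw [this]
      exact hsn_adj_le _
  -- the scale
  set c : ℝ := (n : ℝ) ^ 2 * ((n : ℝ) ^ 2 * nf) with hc
  have hcn : (1 : ℝ) ≤ n := by exact_mod_cast hn0
  have hc1 : 1 ≤ c := by
    rw [hc]
    have h1 : (1 : ℝ) ≤ (n : ℝ) ^ 2 := one_le_pow₀ hcn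
    have h2 : (1 : ℝ) ≤ (n : ℝ) ^ 2 * nf := by nlinarith
    nlinarith
  let mm : G → ℕ := fun b => ⌊hsn (m b)⌋₊
  let zz : G → Fin n → Fin n → ℤ := fun b i j => ⌊c * ((mm b : ℝ) + 2) ^ n * m b i j⌋
  have hm1 : ∀ b, hsn (m b) < mm b + 1 := fun b => Nat.lt_floor_add_one _
  have hm2 : ∀ b, (mm b : ℝ) ≤ hsn (m b) := fun b => Nat.floor_le (hsn_nn _)
  let F : G → ℕ × (Fin n → Fin n → ℤ) := fun b => (mm b, zz b)
  have hF : ∀ b b', F b = F b' → hsn (m (b⁻¹ * b')) ≤ 2 + 2 * n := by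
    intro b b' hbb
    have hm : mm b = mm b' := congrArg Prod.fst hbb
    have hz : zz b = zz b' := congrArg Prod.snd hbb
    set K : ℝ := c * ((mm b : ℝ) + 2) ^ n with hKdef
    have hK : 0 < K := by positivity
    have hent : ∀ i j, ((m b' - m b) i j) ^ 2 ≤ (K ^ 2)⁻¹ := by
      intro i j
      have h1 : zz b i j = zz b' i j := by rw [hz]
      have h2 := Int.abs_sub_lt_one_of_floor_eq_floor h1.symm
      rw [← hm, ← mul_sub, abs_mul, ← hKdef, abs_of_pos hK] at h2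
      have h4 : K ^ 2 * (m b' i j - m b i j) ^ 2 < 1 := by
        rw [← mul_pow, ← sq_abs, abs_mul, abs_of_pos hK]
        have h5 := mul_nonneg hK.le (abs_nonneg (m b' i j - m b i j))
        nlinarith
      rw [Matrix.sub_apply, ← one_div, le_div_iff₀ (by positivity), mul_comm]
      exact h4.le
    have hclose : hsn (m b' - m b) ≤ (n : ℝ) ^ 2 * (K ^ 2)⁻¹ := by
      calc hsn (m b' - m b)
          = ∑ i, ∑ j, ((m b' - m b) i j) ^ 2 := rfl
        _ ≤ ∑ i : Fin n, ∑ j : Fin n, (K ^ 2)⁻¹ :=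
            Finset.sum_le_sum fun i _ => Finset.sum_le_sum fun j _ => hent i j
        _ = (n : ℝ) ^ 2 * (K ^ 2)⁻¹ := by
            simp; ring
    obtain ⟨B, hB1, hB2⟩ := hinv b
    have heq : B * m b' - 1 = B * (m b' - m b) := by
      rw [Matrix.mul_sub, hB1]
    have h6 : hsn (B * m b' - 1) ≤ 1 := by
      rw [heq]
      refine (hsn_mul_le _ _).trans ?_
      have hms : (hsn (m b) + 1) ^ n ≤ ((mm b : ℝ) + 2) ^ n :=
        pow_le_pow_left₀ (by have := hsn_nn (m b); linarith) (by have := hm1 b; linarith) n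
      have hB3 : hsn B ≤ (n : ℝ) ^ 2 * (nf * ((mm b : ℝ) + 2) ^ n) := by
        refine hB2.trans (mul_le_mul_of_nonneg_left ?_ (by positivity))
        exact mul_le_mul_of_nonneg_left hms (by positivity)
      have h7 : hsn B * hsn (m b' - m b) ≤
          ((n : ℝ) ^ 2 * (nf * ((mm b : ℝ) + 2) ^ n)) * ((n : ℝ) ^ 2 * (K ^ 2)⁻¹) :=
        mul_le_mul hB3 hclose (hsn_nn _) (by positivity)
      refine h7.trans ?_
      have h8 : ((n : ℝ) ^ 2 * (nf * ((mm b : ℝ) + 2) ^ n)) * ((n : ℝ) ^ 2 * (K ^ 2)⁻¹) =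
          K * (K ^ 2)⁻¹ := by
        rw [hKdef, hc]; ring
      rw [h8, sq, mul_inv, ← mul_assoc, mul_inv_cancel₀ hK.ne', one_mul]
      refine inv_le_one_of_one_le₀ ?_
      have h9 : (1 : ℝ) ≤ ((mm b : ℝ) + 2) ^ n :=
        one_le_pow₀ (by have : (0 : ℝ) ≤ mm b := Nat.cast_nonneg _; linarith)
      rw [hKdef]; nlinarith
    -- `m (b⁻¹ b')` is `± B m b'`
    have h10 : ∃ ε : ℝ, (ε = 1 ∨ ε = -1) ∧ m b' = ε • (m b * m (b⁻¹ * b')) := by
      have := hmul b (b⁻¹ * b')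
      rw [mul_inv_cancel_left] at this
      rcases this with h | h
      · exact ⟨1, Or.inl rfl, by rw [one_smul]; exact h⟩
      · exact ⟨-1, Or.inr rfl, by rw [neg_smul, one_smul]; exact h⟩
    obtain ⟨ε, hε, h11⟩ := h10
    have h12 : hsn (m (b⁻¹ * b')) = hsn (B * m b') := by
      rw [h11, Matrix.mul_smul, ← Matrix.mul_assoc, hB1, Matrix.one_mul]
      rcases hε with h | h
      · rw [h, one_smul]
      · rw [h, neg_smul, one_smul, hsn_neg]
    rw [h12]
    have h13 := hsn_le_add (B * m b') 1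
    rw [hsn_one] at h13
    linarith
  -- the exceptional set
  set N : Set G := {g : G | hsn (m g) ≤ 2 + 2 * n} with hN
  have hNfin : Finite N := (fin _).to_subtype
  -- representatives of the fibres
  let rep : ℕ × (Fin n → Fin n → ℤ) → G := fun x => if h : ∃ b, F b = x then h.choose else 1
  have hrep : ∀ b, F (rep (F b)) = F b := by
    intro b
    have h : ∃ b', F b' = F b := ⟨b, rfl⟩
    have : rep (F b) = h.choose := by
      show (if h : ∃ b', F b' = F b then h.choose else 1) = h.choose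
      rw [dif_pos h]
    rw [this]
    exact h.choose_spec
  let Ψ : G → (ℕ × (Fin n → Fin n → ℤ)) × N :=
    fun b => (F b, ⟨(rep (F b))⁻¹ * b, hF _ _ (hrep b)⟩)
  have hΨ : Function.Injective Ψ := by
    intro b b' h
    have h1 : F b = F b' := congrArg Prod.fst h
    have h2 : (rep (F b))⁻¹ * b = (rep (F b'))⁻¹ * b' :=
      congrArg Subtype.val (congrArg Prod.snd h)
    rw [h1] at h2
    exact mul_left_cancel h2
  -- the summable majorant
  have s1 : Summable (fun k : ℕ => (((k : ℝ) + 1) ^ 2)⁻¹) := by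
    have := (summable_nat_add_iff 1).2 (Real.summable_one_div_nat_pow.2 (by norm_num : 1 < 2))
    refine this.congr fun k => ?_
    push_cast
    rw [one_div]
  let P : (Fin n → Fin n → ℤ) → ℝ := fun f => ∏ i, ∏ j, (max 1 ((f i j : ℝ) ^ 2))⁻¹
  have t2' : Summable P := sq_prod_summable n
  have hP0 : (0 : (Fin n → Fin n → ℤ) → ℝ) ≤ P := fun f =>
    Finset.prod_nonneg fun i _ => Finset.prod_nonneg fun j _ => by positivity
  have hQ0 : (0 : ℕ → ℝ) ≤ fun k : ℕ => (((k : ℝ) + 1) ^ 2)⁻¹ := fun k => by positivity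
  have s2 := Summable.mul_of_nonneg s1 t2' hQ0 hP0
  have hW0 : (0 : ℕ × (Fin n → Fin n → ℤ) → ℝ) ≤
      fun x => (((x.1 : ℝ) + 1) ^ 2)⁻¹ * P x.2 := fun x => mul_nonneg (hQ0 x.1) (hP0 x.2)
  have s3 : Summable (fun _ : N => (1 : ℝ)) := summable_of_hasFiniteSupport (Set.toFinite _)
  have s4 := Summable.mul_of_nonneg s2 s3 hW0 (fun _ => zero_le_one)
  have s5 := (s4.comp_injective hΨ)
  -- the constants
  set e : ℝ := 1 + 2 / c₀ with he
  have he1 : 1 ≤ e := by rw [he]; have : 0 ≤ 2 / c₀ := by positivity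
                         linarith
  set D : ℝ := 2 * c ^ 2 * e ^ (2 * n) + 2 * e ^ (2 * n + 1) with hD
  have hD2 : 0 < D := by positivity
  have hmb : ∀ b, (mm b : ℝ) + 2 ≤ e * hsn (m b) := by
    intro b
    have h1 := hm2 b
    have h2 := hr' b
    have h3 : 2 ≤ 2 / c₀ * hsn (m b) := by
      rw [div_mul_eq_mul_div, le_div_iff₀ hc₀]
      nlinarith
    rw [he]; nlinarith
  have her : ∀ b, 1 ≤ e * hsn (m b) := by
    intro b
    have := hmb b
    have h0 : (0 : ℝ) ≤ mm b := Nat.cast_nonneg _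
    linarith
  refine Summable.of_nonneg_of_le (fun b => ?_) (fun b => ?_) (s5.mul_left (e ^ 2 * D ^ (n * n)))
  · have := hr' b
    have := hsn_nn (m b)
    positivity
  · have hrb := hr' b
    simp only [Function.comp, mul_one, Ψ, F, P]
    set r := hsn (m b) with hrdef
    have hrpos : 0 < r := lt_of_lt_of_le hc₀ hrb
    have hmpos : (0 : ℝ) < (mm b : ℝ) + 1 := by positivity
    have hm3 : (mm b : ℝ) + 1 ≤ e * r := by have := hmb b; rw [← hrdef] at this; linarith
    have hz : ∀ i j, max 1 ((zz b i j : ℝ) ^ 2) ≤ D * r ^ (2 * n + 1) := by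
      intro i j
      have hq : 1 ≤ (e * r) ^ (2 * n + 1) := one_le_pow₀ (her b)
      have hq1 : (1 : ℝ) ≤ e ^ (2 * n + 1) * r ^ (2 * n + 1) := by rw [← mul_pow]; exact hq
      have hrn : 0 < r ^ (2 * n + 1) := by positivity
      have hcc : 0 ≤ 2 * c ^ 2 * e ^ (2 * n) * r ^ (2 * n + 1) := by positivity
      have hDr : D * r ^ (2 * n + 1) = 2 * c ^ 2 * e ^ (2 * n) * r ^ (2 * n + 1) +
          2 * (e ^ (2 * n + 1) * r ^ (2 * n + 1)) := by rw [hD]; ring
      refine max_le (by rw [hDr]; linarith) ?_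
      set y := c * ((mm b : ℝ) + 2) ^ n * m b i j with hy
      have hx : |(zz b i j : ℝ) - y| ≤ 1 := by
        rw [abs_le]
        have l1 := Int.floor_le y
        have l2 := Int.lt_floor_add_one y
        constructor
        · simp only [zz]; linarith
        · simp only [zz]; linarith
      have hx2 := (abs_le.1 hx)
      have hy2 : y ^ 2 ≤ c ^ 2 * (e * r) ^ (2 * n) * r := by
        rw [hy, mul_pow, mul_pow, ← pow_mul, mul_comm n 2]
        refine mul_le_mul (mul_le_mul_of_nonneg_left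
          (pow_le_pow_left₀ (by positivity) (hmb b) (2 * n)) (sq_nonneg c)) (sq_le_hsn _ i j)
          (sq_nonneg _) (by positivity)
      have hz2 : (zz b i j : ℝ) ^ 2 ≤ 2 * y ^ 2 + 2 := by
        nlinarith [sq_nonneg ((zz b i j : ℝ) - 2 * y), hx2.1, hx2.2]
      have hy3 : c ^ 2 * (e * r) ^ (2 * n) * r = c ^ 2 * e ^ (2 * n) * r ^ (2 * n + 1) := by
        rw [mul_pow]; ring
      rw [hy3] at hy2
      calc (zz b i j : ℝ) ^ 2 ≤ 2 * y ^ 2 + 2 := hz2
        _ ≤ 2 * (c ^ 2 * e ^ (2 * n) * r ^ (2 * n + 1)) +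
            2 * (e ^ (2 * n + 1) * r ^ (2 * n + 1)) := by linarith
        _ = D * r ^ (2 * n + 1) := by rw [hDr]; ring
    have hprod : ∏ i : Fin n, ∏ j : Fin n, max 1 ((zz b i j : ℝ) ^ 2) ≤
        (D * r ^ (2 * n + 1)) ^ (n * n) := by
      have : (D * r ^ (2 * n + 1)) ^ (n * n) = ∏ i : Fin n, ∏ j : Fin n, (D * r ^ (2 * n + 1)) := by
        simp [Finset.prod_const, ← pow_mul]
      rw [this]
      exact Finset.prod_le_prod (fun i _ => Finset.prod_nonneg fun j _ => by positivity)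
        fun i _ => Finset.prod_le_prod (fun j _ => by positivity) fun j _ => hz i j
    have hpp : 0 < ∏ i : Fin n, ∏ j : Fin n, max 1 ((zz b i j : ℝ) ^ 2) :=
      Finset.prod_pos fun i _ => Finset.prod_pos fun j _ => by positivity
    simp only [Finset.prod_inv_distrib]
    rw [← mul_inv, ← div_eq_mul_inv, le_div_iff₀ (mul_pos (by positivity) hpp),
      inv_mul_le_iff₀ (by positivity)]
    calc ((mm b : ℝ) + 1) ^ 2 * ∏ i : Fin n, ∏ j : Fin n, max 1 ((zz b i j : ℝ) ^ 2)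
        ≤ (e * r) ^ 2 * (D * r ^ (2 * n + 1)) ^ (n * n) :=
          mul_le_mul (pow_le_pow_left₀ hmpos.le hm3 2) hprod hpp.le (by positivity)
      _ = r ^ expo n * (e ^ 2 * D ^ (n * n)) := by
          rw [expo, mul_pow, mul_pow, ← pow_mul, mul_assoc (2 * n + 1) n n, pow_add]; ring_nf

end Vale.Agent.P092.H377
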