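import Mathlib

/-!
P092 (helper377): averaging an invariant state of a subgroup of finite covolume.

`G` acts continuously on a compact space `X`; `Γ ≤ G` is such that `G ⧸ Γ` carries a nonzero finite
`G`-invariant Borel measure.  A `Γ`-invariant state of `C(X)` yields a `G`-invariant one.
-/

open MeasureTheory

namespace Vale.Agent.P092.H377

section
variable {G X : Type*} [Group G] [TopologicalSpace G] [TopologicalSpace X]

/-- A continuous action (without unit axiom), as a plain function. -/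
structure CAct (G X : Type*) [Group G] [TopologicalSpace G] [TopologicalSpace X] where
  /-- the action -/
  a : G → X → X
  cont : Continuous (fun p : G × X => a p.1 p.2)
  mul : ∀ g h x, a (g * h) x = a g (a h x)

variable (α : CAct G X)

lemma CAct.cont_one (g : G) : Continuous (α.a g) :=
  α.cont.comp (Continuous.prodMk_right g)

/-- Translate of a function. -/
def CAct.pull (g : G) (F : C(X, ℝ)) : C(X, ℝ) :=
  ⟨fun x => F (α.a g x), F.continuous.comp (α.cont_one g)⟩

@[simp] lemma CAct.pull_apply (g : G) (F : C(X, ℝ)) (x : X) : α.pull g F x = F (α.a g x) := rfl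

lemma CAct.pull_pull (g h : G) (F : C(X, ℝ)) : α.pull h (α.pull g F) = α.pull (g * h) F := by
  ext x; simp [α.mul]

lemma CAct.pull_add (g : G) (F F' : C(X, ℝ)) : α.pull g (F + F') = α.pull g F + α.pull g F' := rfl

lemma CAct.pull_smul (g : G) (c : ℝ) (F : C(X, ℝ)) : α.pull g (c • F) = c • α.pull g F := rfl

lemma CAct.pull_one (g : G) : α.pull g (1 : C(X, ℝ)) = 1 := rfl

lemma CAct.continuous_pull (F : C(X, ℝ)) : Continuous (fun g => α.pull g F) :=
  ContinuousMap.continuous_of_continuous_uncurry _ (F.continuous.comp α.cont)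

lemma pos_abs_le [CompactSpace X] (L : C(X, ℝ) →ₗ[ℝ] ℝ) (hL : ∀ F, 0 ≤ F → 0 ≤ L F)
    (F : C(X, ℝ)) : |L F| ≤ ‖F‖ * L 1 := by
  have h1 : 0 ≤ ‖F‖ • (1 : C(X, ℝ)) - F := by
    intro x
    have := (Real.norm_eq_abs _ ▸ F.norm_coe_le_norm x)
    have := le_of_abs_le this
    simpa using this
  have h2 : 0 ≤ ‖F‖ • (1 : C(X, ℝ)) + F := by
    intro x
    have := (Real.norm_eq_abs _ ▸ F.norm_coe_le_norm x)
    have := neg_le_of_abs_le this
    simp
    linarith
  have h3 := hL _ h1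
  have h4 := hL _ h2
  rw [map_sub, map_smul, smul_eq_mul] at h3
  rw [map_add, map_smul, smul_eq_mul] at h4
  rw [abs_le]
  constructor <;> linarith

lemma continuous_pos [CompactSpace X] (L : C(X, ℝ) →ₗ[ℝ] ℝ) (hL : ∀ F, 0 ≤ F → 0 ≤ L F) : Continuous L := by
  refine AddMonoidHomClass.continuous_of_bound L (L 1) fun F => ?_
  rw [Real.norm_eq_abs, mul_comm]
  exact pos_abs_le L hL F

/-- The orbit function on `G ⧸ Γ`. -/
def orb (Γ : Subgroup G) (L : C(X, ℝ) →ₗ[ℝ] ℝ)
    (hinv : ∀ s ∈ Γ, ∀ F, L (α.pull s F) = L F) (F : C(X, ℝ)) : G ⧸ Γ → ℝ :=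
  Quotient.lift (fun g => L (α.pull g F)) (by
    intro g h hgh
    have h1 : g⁻¹ * h ∈ Γ := QuotientGroup.leftRel_apply.1 hgh
    have h2 := hinv _ h1 (α.pull g F)
    rw [α.pull_pull, mul_inv_cancel_left] at h2
    exact h2.symm)

theorem avg_state [IsTopologicalGroup G] [CompactSpace X] (Γ : Subgroup G) [MeasurableSpace (G ⧸ Γ)] [BorelSpace (G ⧸ Γ)]
    (μ : Measure (G ⧸ Γ)) [IsFiniteMeasure μ] [SMulInvariantMeasure G (G ⧸ Γ) μ] (hμ : μ ≠ 0)
    (L : C(X, ℝ) →ₗ[ℝ] ℝ) (hL : ∀ F, 0 ≤ F → 0 ≤ L F) (h1 : 0 < L 1)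
    (hinv : ∀ s ∈ Γ, ∀ F, L (α.pull s F) = L F) :
    ∃ L' : C(X, ℝ) →ₗ[ℝ] ℝ, (∀ F, 0 ≤ F → 0 ≤ L' F) ∧ 0 < L' 1 ∧
      ∀ (s : G) (F : C(X, ℝ)), L' (α.pull s F) = L' F := by
  have hLc := continuous_pos L hL
  have hmk : ∀ (F : C(X, ℝ)) (g : G), orb α Γ L hinv F (g : G ⧸ Γ) = L (α.pull g F) :=
    fun F g => rfl
  have hcont : ∀ F, Continuous (orb α Γ L hinv F) := fun F =>
    continuous_quot_lift _ (hLc.comp (α.continuous_pull F))
  have hbd : ∀ F x, ‖orb α Γ L hinv F x‖ ≤ ‖F‖ * L 1 := by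
    intro F x
    obtain ⟨g, rfl⟩ := QuotientGroup.mk_surjective x
    rw [hmk, Real.norm_eq_abs]
    refine (pos_abs_le L hL _).trans (mul_le_mul_of_nonneg_right ?_ h1.le)
    exact (ContinuousMap.norm_le _ (norm_nonneg _)).2 fun y => F.norm_coe_le_norm _
  have hint : ∀ F, Integrable (orb α Γ L hinv F) μ := fun F =>
    Integrable.of_bound (hcont F).aestronglyMeasurable (‖F‖ * L 1)
      (Filter.Eventually.of_forall (hbd F))
  refine ⟨{ toFun := fun F => ∫ x, orb α Γ L hinv F x ∂μ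
            map_add' := ?_
            map_smul' := ?_ }, ?_, ?_, ?_⟩
  · intro F F'
    rw [← integral_add (hint F) (hint F')]
    refine integral_congr_ae (Filter.Eventually.of_forall fun x => ?_)
    obtain ⟨g, rfl⟩ := QuotientGroup.mk_surjective x
    simp only [hmk, α.pull_add, map_add]
  · intro c F
    rw [RingHom.id_apply, smul_eq_mul, ← integral_const_mul]
    refine integral_congr_ae (Filter.Eventually.of_forall fun x => ?_)
    obtain ⟨g, rfl⟩ := QuotientGroup.mk_surjective x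
    simp only [hmk, α.pull_smul, map_smul, smul_eq_mul]
  · intro F hF
    refine integral_nonneg fun x => ?_
    obtain ⟨g, rfl⟩ := QuotientGroup.mk_surjective x
    exact hL _ fun y => hF (α.a g y)
  · show 0 < ∫ x, orb α Γ L hinv 1 x ∂μ
    have : (fun x => orb α Γ L hinv 1 x) = fun _ => L 1 := by
      funext x
      obtain ⟨g, rfl⟩ := QuotientGroup.mk_surjective x
      rw [hmk, α.pull_one]
    rw [this, integral_const, smul_eq_mul]
    refine mul_pos ?_ h1
    rw [Measure.real, ENNReal.toReal_pos_iff]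
    exact ⟨Measure.measure_univ_pos.2 hμ, measure_lt_top _ _⟩
  · intro s F
    show ∫ x, orb α Γ L hinv (α.pull s F) x ∂μ = ∫ x, orb α Γ L hinv F x ∂μ
    rw [← integral_smul_eq_self (fun x => orb α Γ L hinv F x) (g := s)]
    refine integral_congr_ae (Filter.Eventually.of_forall fun x => ?_)
    obtain ⟨g, rfl⟩ := QuotientGroup.mk_surjective x
    show L (α.pull g (α.pull s F)) = L (α.pull (s * g) F)
    rw [α.pull_pull]

end

end Vale.Agent.P092.H377
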