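import Vale.Agent.P092.H432.Avg

/-!
P092 (helper377): comparison of projections in the right algebra of an ICC group, through an extreme
point of the unit ball of a corner.
-/

set_option linter.all false

open scoped InnerProductSpace
open Filter Topology ContinuousLinearMap

namespace Vale.Agent.P092.H377

open Vale.Agent.P092.H160 Vale.Agent.P092.H553 Vale.Agent.P092.H432

section hilbert

variable {H : Type} [NormedAddCommGroup H] [InnerProductSpace ℂ H] [CompleteSpace H]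

theorem re_inner_symm' (x y : H) : (⟪x, y⟫_ℂ).re = (⟪y, x⟫_ℂ).re := by
  rw [← inner_conj_symm, Complex.conj_re]

theorem nsub (x y : H) : ‖x - y‖ ^ 2 = ‖x‖ ^ 2 - 2 * (⟪x, y⟫_ℂ).re + ‖y‖ ^ 2 := by
  have h := norm_sub_sq (𝕜 := ℂ) x y
  simpa using h

theorem nadd (x y : H) : ‖x + y‖ ^ 2 = ‖x‖ ^ 2 + 2 * (⟪x, y⟫_ℂ).re + ‖y‖ ^ 2 := by
  have h := norm_add_sq (𝕜 := ℂ) x y
  simpa using h

theorem proj_norm_le {P : H →L[ℂ] H} (hP1 : adjoint P = P) (hP2 : P * P = P) (ξ : H) :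
    ‖P ξ‖ ≤ ‖ξ‖ := by
  have h1 : ‖P ξ‖ ^ 2 = (⟪ξ, P ξ⟫_ℂ).re := by
    have h2 : ⟪P ξ, P ξ⟫_ℂ = ⟪ξ, P ξ⟫_ℂ := by
      conv_lhs => rw [← adjoint_inner_right, hP1]
      rw [← mul_apply_eq_comp, hP2]
    rw [← h2, inner_self_eq_norm_sq_to_K]
    norm_cast
  have h3 : (⟪ξ, P ξ⟫_ℂ).re ≤ ‖ξ‖ * ‖P ξ‖ := (Complex.re_le_norm _).trans (norm_inner_le_norm _ _)
  by_contra hc
  push Not at hc
  have h4 := norm_nonneg (P ξ)
  have h5 := norm_nonneg ξ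
  nlinarith

/-- `‖(P - a* a) ξ‖² ≤ ‖P ξ‖² - ‖a ξ‖²`. -/
theorem defect_le {P a : H →L[ℂ] H} (hP1 : adjoint P = P) (haP : a * P = a) (ha : ‖a‖ ≤ 1)
    (ξ : H) : ‖P ξ - adjoint a (a ξ)‖ ^ 2 ≤ ‖P ξ‖ ^ 2 - ‖a ξ‖ ^ 2 := by
  have h1 : ⟪P ξ, adjoint a (a ξ)⟫_ℂ = ⟪a ξ, a ξ⟫_ℂ := by
    rw [adjoint_inner_right, ← mul_apply_eq_comp, haP]
  have h2 : (⟪P ξ, adjoint a (a ξ)⟫_ℂ).re = ‖a ξ‖ ^ 2 := by
    rw [h1, inner_self_eq_norm_sq_to_K]
    norm_cast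
  have h3 : ‖adjoint a (a ξ)‖ ≤ ‖a ξ‖ := by
    have h4 : ‖adjoint a‖ ≤ 1 := by rw [LinearIsometryEquiv.norm_map]; exact ha
    calc _ ≤ ‖adjoint a‖ * ‖a ξ‖ := (adjoint a).le_opNorm _
      _ ≤ 1 * ‖a ξ‖ := by gcongr
      _ = ‖a ξ‖ := _root_.one_mul _
  rw [nsub, h2]
  have h4 : ‖adjoint a (a ξ)‖ ^ 2 ≤ ‖a ξ‖ ^ 2 := by gcongr
  linarith

/-- The perturbation `a + (ε / 2) (e - a a*) x (P - a* a)`, `|ε| = 1`, is a contraction. -/
theorem pert_le {e P a x : H →L[ℂ] H} (hP1 : adjoint P = P) (hP2 : P * P = P)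
    (he1 : adjoint e = e) (he2 : e * e = e) (haP : a * P = a) (hea : e * a = a) (ha : ‖a‖ ≤ 1)
    (hx : ‖x‖ ≤ 1) (ε : ℂ) (hε : ‖ε‖ ≤ 1) (ξ : H) :
    ‖a ξ + (ε / 2) • (e (x (P ξ - adjoint a (a ξ))) -
      a (adjoint a (x (P ξ - adjoint a (a ξ)))))‖ ≤ ‖ξ‖ := by
  obtain ⟨ζ, hζ⟩ : ∃ ζ, ζ = P ξ - adjoint a (a ξ) := ⟨_, rfl⟩
  obtain ⟨y, hy⟩ : ∃ y, y = x ζ := ⟨_, rfl⟩
  rw [← hζ, ← hy]
  have h1 : ‖ζ‖ ^ 2 ≤ ‖P ξ‖ ^ 2 - ‖a ξ‖ ^ 2 := by rw [hζ]; exact defect_le hP1 haP ha ξ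
  have hae : adjoint a * e = adjoint a := by
    have h := congrArg adjoint hea
    rw [← star_eq_adjoint, star_mul, star_eq_adjoint, star_eq_adjoint, he1] at h
    exact h
  have ha' : ‖adjoint a‖ ≤ 1 := by rw [LinearIsometryEquiv.norm_map]; exact ha
  have h2 : ‖e y - a (adjoint a y)‖ ^ 2 ≤ ‖e y‖ ^ 2 - ‖adjoint a y‖ ^ 2 := by
    have h := defect_le (P := e) (a := adjoint a) he1 hae ha' y
    rwa [adjoint_adjoint] at h
  have h3 : ‖y‖ ≤ ‖ζ‖ := by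
    rw [hy]
    calc _ ≤ ‖x‖ * ‖ζ‖ := x.le_opNorm _
      _ ≤ 1 * ‖ζ‖ := by gcongr
      _ = ‖ζ‖ := _root_.one_mul _
  have h4 : ‖adjoint a y‖ ≤ ‖y‖ := by
    calc _ ≤ ‖adjoint a‖ * ‖y‖ := (adjoint a).le_opNorm _
      _ ≤ 1 * ‖y‖ := by gcongr
      _ = ‖y‖ := _root_.one_mul _
  have h5 : ‖e y‖ ≤ ‖y‖ := proj_norm_le he1 he2 y
  have h6 : ⟪a ξ, e y - a (adjoint a y)⟫_ℂ = ⟪ζ, adjoint a y⟫_ℂ := by
    rw [inner_sub_right, hζ, inner_sub_left]
    congr 1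
    · rw [← adjoint_inner_left e, he1, ← mul_apply_eq_comp, hea, adjoint_inner_right,
        ← mul_apply_eq_comp, haP]
    · exact (adjoint_inner_left a _ _).symm
  have h7 : (⟪a ξ, (ε / 2) • (e y - a (adjoint a y))⟫_ℂ).re ≤ (1 / 2) * (‖ζ‖ * ‖adjoint a y‖) := by
    rw [inner_smul_right, h6]
    refine (Complex.re_le_norm _).trans ?_
    rw [norm_mul, norm_div]
    have h8 : ‖(2 : ℂ)‖ = 2 := by simp
    rw [h8]
    have h9 : ‖⟪ζ, adjoint a y⟫_ℂ‖ ≤ ‖ζ‖ * ‖adjoint a y‖ := norm_inner_le_norm _ _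
    have h10 := norm_nonneg ε
    have h11 := norm_nonneg (⟪ζ, adjoint a y⟫_ℂ)
    gcongr
  have h8 : ‖(ε / 2) • (e y - a (adjoint a y))‖ ^ 2 ≤ (1 / 4) * (‖y‖ ^ 2 - ‖adjoint a y‖ ^ 2) := by
    rw [norm_smul, mul_pow, norm_div]
    have h9 : ‖(2 : ℂ)‖ = 2 := by simp
    rw [h9]
    have h10 : (‖ε‖ / 2) ^ 2 ≤ 1 / 4 := by
      have h11 := norm_nonneg ε
      nlinarith
    have h12 : ‖e y‖ ^ 2 ≤ ‖y‖ ^ 2 := by gcongr
    calc (‖ε‖ / 2) ^ 2 * ‖e y - a (adjoint a y)‖ ^ 2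
        ≤ (1 / 4) * (‖e y‖ ^ 2 - ‖adjoint a y‖ ^ 2) := by gcongr
      _ ≤ _ := by linarith
  have h9 : ‖P ξ‖ ≤ ‖ξ‖ := proj_norm_le hP1 hP2 ξ
  have h10 : ‖a ξ + (ε / 2) • (e y - a (adjoint a y))‖ ^ 2 ≤ ‖ξ‖ ^ 2 := by
    rw [nadd]
    have h11 : ‖P ξ‖ ^ 2 ≤ ‖ξ‖ ^ 2 := by gcongr
    have h12 := norm_nonneg (adjoint a y)
    have h13 := norm_nonneg y
    have h14 := norm_nonneg ζ
    nlinarith [mul_nonneg h14 (sub_nonneg.2 (h4.trans h3)), mul_nonneg h12 (sub_nonneg.2 (h4.trans h3)),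
      mul_nonneg h13 (sub_nonneg.2 h3), mul_nonneg h14 (sub_nonneg.2 h3)]
  have h15 := (sq_le_sq₀ (norm_nonneg _) (norm_nonneg _)).mp h10
  exact h15

end hilbert

section ball

variable {Γ ι : Type} [Group Γ]

/-- The unit ball of `e RA P`. -/
def Bl (e P : Ell2 (Γ × ι) →L[ℂ] Ell2 (Γ × ι)) : Set (Ell2 (Γ × ι) →L[ℂ] Ell2 (Γ × ι)) :=
  {a | RA a ∧ e * a * P = a ∧ ‖a‖ ≤ 1}

/-- The matrix coefficients. -/
noncomputable def cf (a : Ell2 (Γ × ι) →L[ℂ] Ell2 (Γ × ι)) : Ell2 (Γ × ι) × Ell2 (Γ × ι) → ℂ :=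
  fun x => ⟪x.1, a x.2⟫_ℂ

theorem cf_inj {a b : Ell2 (Γ × ι) →L[ℂ] Ell2 (Γ × ι)} (h : cf a = cf b) : a = b :=
  op_ext_inner fun ξ η => congrFun h (ξ, η)

theorem zero_mem_Bl (e P : Ell2 (Γ × ι) →L[ℂ] Ell2 (Γ × ι)) : (0 : _) ∈ Bl e P := by
  refine ⟨RA.zero, by rw [mul_zero, zero_mul], by rw [norm_zero]; exact zero_le_one⟩

theorem isCompact_cf (e P : Ell2 (Γ × ι) →L[ℂ] Ell2 (Γ × ι)) : IsCompact (cf '' Bl e P) := by
  classical
  rw [isCompact_iff_ultrafilter_le_nhds]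
  intro V hV
  obtain ⟨T, hT⟩ : ∃ T : (Ell2 (Γ × ι) × Ell2 (Γ × ι) → ℂ) → (Ell2 (Γ × ι) →L[ℂ] Ell2 (Γ × ι)),
      T = fun f => if h : ∃ a, a ∈ Bl e P ∧ cf a = f then h.choose else 0 := ⟨_, rfl⟩
  have hTB : ∀ f, T f ∈ Bl e P := by
    intro f
    rw [hT]
    by_cases h : ∃ a, a ∈ Bl e P ∧ cf a = f
    · simp only [dif_pos h]
      exact h.choose_spec.1
    · simp only [dif_neg h]
      exact zero_mem_Bl e P
  have hTc : ∀ f ∈ cf '' Bl e P, cf (T f) = f := by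
    intro f hf
    have h : ∃ a, a ∈ Bl e P ∧ cf a = f := hf
    rw [hT]
    simp only [dif_pos h]
    exact h.choose_spec.2
  obtain ⟨L, hL1, hL2⟩ := H108.exists_wot_limit V T 1 (fun f => (hTB f).2.2) zero_le_one
  refine ⟨cf L, ⟨L, ⟨?_, ?_, hL1⟩, rfl⟩, ?_⟩
  · intro s
    refine op_ext_inner fun ξ η => ?_
    rw [mul_ap, mul_ap, lxH_apply]
    rw [inner_lx_right]
    refine tendsto_nhds_unique (hL2 ξ (lx s η)) ?_
    refine (hL2 (lx s⁻¹ ξ) η).congr fun f => ?_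
    rw [(hTB f).1.app, inner_lx_right]
  · refine op_ext_inner fun ξ η => ?_
    rw [mul_ap, mul_ap, ← adjoint_inner_left e]
    refine tendsto_nhds_unique (hL2 (adjoint e ξ) (P η)) ?_
    refine (hL2 ξ η).congr fun f => ?_
    rw [adjoint_inner_left]
    conv_lhs => rw [← (hTB f).2.1]
    rfl
  · have h1 : Tendsto (fun f : Ell2 (Γ × ι) × Ell2 (Γ × ι) → ℂ => f) V (𝓝 (cf L)) := by
      rw [tendsto_pi_nhds]
      intro x
      refine (hL2 x.1 x.2).congr' ?_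
      have h2 : cf '' Bl e P ∈ (V : Filter _) := by simpa using hV
      filter_upwards [h2] with f hf
      exact congrFun (hTc f hf) x
    exact h1

/-- **Extreme points** of the unit ball. -/
theorem exists_extreme (e P : Ell2 (Γ × ι) →L[ℂ] Ell2 (Γ × ι)) :
    ∃ a ∈ Bl e P, ∀ b, a + b ∈ Bl e P → a - b ∈ Bl e P → b = 0 := by
  obtain ⟨f, hf⟩ := (isCompact_cf e P).extremePoints_nonempty ⟨_, 0, zero_mem_Bl e P, rfl⟩
  rw [mem_extremePoints_iff_left] at hf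
  obtain ⟨⟨a, ha, rfl⟩, hf⟩ := hf
  refine ⟨a, ha, fun b h1 h2 => ?_⟩
  have h3 := hf _ ⟨_, h1, rfl⟩ _ ⟨_, h2, rfl⟩ ⟨1 / 2, 1 / 2, by norm_num, by norm_num, by norm_num, by
    funext x
    simp only [cf, Pi.add_apply, Pi.smul_apply, add_apply, sub_apply, inner_add_right,
      inner_sub_right, Complex.real_smul]
    push_cast
    ring⟩
  have h4 := cf_inj h3
  exact add_eq_left.mp h4

end ball

section factor

variable {Γ ι : Type} [Group Γ] [Fintype ι]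

/-- In a factor, `x RA y = 0` only if `x = 0` or `trace y = 0`. -/
theorem factor (hΓ : ∀ g : Γ, g ≠ 1 → Set.Infinite {y | ∃ h, y = h * g * h⁻¹})
    {x y : Ell2 (Γ × ι) →L[ℂ] Ell2 (Γ × ι)} (hx : RA x) (hy : RA y)
    (h : ∀ z, RA z → x * z * y = 0) : x = 0 ∨ trA y = 0 := by
  classical
  by_cases h0 : trA y = 0
  · exact Or.inr h0
  left
  refine hx.ext RA.zero fun b => ?_
  rw [zero_apply, ← norm_le_zero_iff]
  refine le_of_forall_pos_le_add fun ε hε => ?_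
  have h0' : 0 < ‖trA y‖ := norm_pos_iff.mpr h0
  obtain ⟨c, hc⟩ := exists_cav hΓ hy b (ε := ε * ‖trA y‖ / (‖x‖ + 1)) (by positivity)
  have h1 : x (cav c y (ep b)) = 0 := by
    rw [← mul_ap]
    have h2 : x * cav c y = 0 := by
      rw [cav, Finset.mul_sum]
      refine Finset.sum_eq_zero fun j _ => ?_
      rw [mul_smul_comm, av, Finset.mul_sum, Finset.sum_eq_zero, smul_zero]
      intro a _
      rw [Finset.mul_sum]
      refine Finset.sum_eq_zero fun d _ => ?_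
      rw [← mul_assoc, ← mul_assoc, h _ (ex_ra _ _ _), zero_mul]
    rw [h2, zero_apply]
  have h2 : ‖x (trA y • ep b)‖ ≤ ‖x‖ * (ε * ‖trA y‖ / (‖x‖ + 1)) := by
    have h3 : x (trA y • ep b) = - x (cav c y (ep b) - trA y • ep b) := by
      rw [map_sub, h1, zero_sub, neg_neg]
    rw [h3, norm_neg]
    refine (x.le_opNorm _).trans ?_
    gcongr
  rw [map_smul, norm_smul] at h2
  have h3 : ‖x‖ * (ε * ‖trA y‖ / (‖x‖ + 1)) ≤ ‖trA y‖ * ε := by
    have h4 : ‖x‖ / (‖x‖ + 1) ≤ 1 := by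
      rw [div_le_one (by positivity)]; linarith
    calc ‖x‖ * (ε * ‖trA y‖ / (‖x‖ + 1)) = (‖x‖ / (‖x‖ + 1)) * (‖trA y‖ * ε) := by ring
      _ ≤ 1 * (‖trA y‖ * ε) := by gcongr
      _ = _ := _root_.one_mul _
  have h4 := le_of_mul_le_mul_left (h2.trans h3) h0'
  linarith

end factor

section comparison

variable {Γ ι : Type} [Group Γ] [Fintype ι]

/-- **Comparison of projections.** -/
theorem comparison (hΓ : ∀ g : Γ, g ≠ 1 → Set.Infinite {y | ∃ h, y = h * g * h⁻¹})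
    {e P : Ell2 (Γ × ι) →L[ℂ] Ell2 (Γ × ι)} (he : RA e) (hP : RA P) (he1 : adjoint e = e)
    (he2 : e * e = e) (hP1 : adjoint P = P) (hP2 : P * P = P) :
    ∃ a, RA a ∧ e * a = a ∧ a * P = a ∧ (adjoint a * a = P ∨ a * adjoint a = e) := by
  obtain ⟨a, ⟨ha, haeP, ha1⟩, hext⟩ := exists_extreme e P
  have hea : e * a = a := by
    conv_lhs => rw [← haeP]
    rw [← mul_assoc, ← mul_assoc, he2, haeP]
  have haP : a * P = a := by
    conv_lhs => rw [← haeP]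
    rw [mul_assoc, hP2, haeP]
  refine ⟨a, ha, hea, haP, ?_⟩
  have haa : RA (adjoint a) := ra_adjoint ha
  have key1 : ∀ x, RA x → ‖x‖ ≤ 1 → (e - a * adjoint a) * x * (P - adjoint a * a) = 0 := by
    intro x hx hx1
    have hb : RA ((1 / 2 : ℂ) • ((e - a * adjoint a) * x * (P - adjoint a * a))) :=
      (((he.sub (ha.mul haa)).mul hx).mul (hP.sub (haa.mul ha))).smul _
    have h1 : e * (e - a * adjoint a) = e - a * adjoint a := by
      rw [mul_sub, he2, ← mul_assoc, hea]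
    have h2 : (P - adjoint a * a) * P = P - adjoint a * a := by
      rw [sub_mul, hP2, mul_assoc, haP]
    have hb2 : e * ((1 / 2 : ℂ) • ((e - a * adjoint a) * x * (P - adjoint a * a))) * P =
        (1 / 2 : ℂ) • ((e - a * adjoint a) * x * (P - adjoint a * a)) := by
      rw [mul_smul_comm, smul_mul_assoc]
      congr 1
      rw [show e * ((e - a * adjoint a) * x * (P - adjoint a * a)) * P =
        (e * (e - a * adjoint a)) * x * ((P - adjoint a * a) * P) by simp only [mul_assoc], h1, h2]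
    have h3 := hext ((1 / 2 : ℂ) • ((e - a * adjoint a) * x * (P - adjoint a * a)))
      ⟨ha.add hb, by rw [mul_add, add_mul, haeP, hb2], by
        refine opNorm_le_bound _ zero_le_one fun ξ => ?_
        rw [_root_.one_mul]
        have h := pert_le hP1 hP2 he1 he2 haP hea ha1 hx1 1 (by simp) ξ
        refine le_of_eq_of_le ?_ h
        rfl⟩
      ⟨ha.sub hb, by rw [mul_sub, sub_mul, haeP, hb2], by
        refine opNorm_le_bound _ zero_le_one fun ξ => ?_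
        rw [_root_.one_mul]
        have h := pert_le hP1 hP2 he1 he2 haP hea ha1 hx1 (-1) (by simp) ξ
        refine le_of_eq_of_le ?_ h
        congr 1
        rw [sub_apply, sub_eq_add_neg]
        congr 1
        rw [neg_div, neg_smul]
        rfl⟩
    have h4 : (1 / 2 : ℂ) ≠ 0 := by norm_num
    exact (smul_eq_zero.mp h3).resolve_left h4
  have key2 : ∀ x, RA x → (e - a * adjoint a) * x * (P - adjoint a * a) = 0 := by
    intro x hx
    have h0 : (0 : ℝ) < ‖x‖ + 1 := by positivity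
    have h1 := key1 (((‖x‖ + 1 : ℝ) : ℂ)⁻¹ • x) (hx.smul _) (by
      rw [norm_smul, norm_inv, Complex.norm_real, Real.norm_of_nonneg h0.le,
        inv_mul_le_one₀ h0]
      linarith)
    rw [mul_smul_comm, smul_mul_assoc] at h1
    refine (smul_eq_zero.mp h1).resolve_left ?_
    exact inv_ne_zero (by exact_mod_cast h0.ne')
  rcases factor hΓ (he.sub (ha.mul haa)) (hP.sub (haa.mul ha)) key2 with h | h
  · right
    exact (sub_eq_zero.mp h).symm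
  · left
    have h1 : (nn P : ℂ) - nn a = 0 := by
      rw [trA_sub, trA_star_mul] at h
      rw [← h, ← trA_star_mul, hP1, hP2]
    have h2 : nn P - nn a = 0 := by exact_mod_cast h1
    have h3 : nn (P - adjoint a * a) ≤ nn P - nn a := by
      rw [nn, nn, nn, ← Finset.sum_sub_distrib]
      exact Finset.sum_le_sum fun i _ => defect_le hP1 haP ha1 (ep i)
    have h4 := nn_eq_zero (hP.sub (haa.mul ha)) (le_antisymm (h3.trans h2.le) (nn_nonneg _))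
    exact (sub_eq_zero.mp h4).symm

end comparison

end Vale.Agent.P092.H377
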