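import Vale.Agent.P092.H85.CD

/-!
P092 (helper377): a subgroup of finite index of a lattice is a lattice (invariant probability
measures on the quotients).
-/

set_option linter.all false

open Set Filter Topology MeasureTheory

namespace Vale.Agent.P092.H377

open Vale.Agent.P092.H85

section main

variable {E : Type} [Group E] [TopologicalSpace E] [IsTopologicalGroup E] [LocallyCompactSpace E]
  [SecondCountableTopology E] [T2Space E] [MeasurableSpace E] [BorelSpace E]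

variable (Λ Λ₀ : Subgroup E) [DiscreteTopology Λ] [MeasurableSpace (E ⧸ Λ)] [BorelSpace (E ⧸ Λ)]
  [MeasurableSpace (E ⧸ Λ₀)] [BorelSpace (E ⧸ Λ₀)]

/-- A point of the fibre of `E ⧸ Λ₀ → E ⧸ Λ`. -/
noncomputable def fsec (j : Λ ⧸ Λ₀.subgroupOf Λ) (x : E ⧸ Λ) : E ⧸ Λ₀ :=
  ((sec Λ x * ((Quotient.out j : Λ) : E) : E) : E ⧸ Λ₀)

theorem fsec_smul (g : E) (x : E ⧸ Λ) (j : Λ ⧸ Λ₀.subgroupOf Λ) :
    g • fsec Λ Λ₀ j x = fsec Λ Λ₀ (coc Λ g x • j) (g • x) := by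
  have h1 : ((coc Λ g x * (Quotient.out j : Λ) : Λ) : Λ ⧸ Λ₀.subgroupOf Λ) =
      ((Quotient.out (coc Λ g x • j) : Λ) : Λ ⧸ Λ₀.subgroupOf Λ) := by
    have h2 : ((Quotient.out (coc Λ g x • j) : Λ) : Λ ⧸ Λ₀.subgroupOf Λ) = coc Λ g x • j :=
      QuotientGroup.out_eq' _
    have h3 : ((Quotient.out j : Λ) : Λ ⧸ Λ₀.subgroupOf Λ) = j := QuotientGroup.out_eq' _
    rw [h2]
    conv_rhs => rw [← h3]
    rfl
  rw [QuotientGroup.eq, Subgroup.mem_subgroupOf] at h1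
  change ((g * (sec Λ x * ((Quotient.out j : Λ) : E)) : E) : E ⧸ Λ₀) = _
  rw [fsec, QuotientGroup.eq, ← mul_assoc g, ← sec_mul_coc]
  have h4 : (sec Λ (g • x) * (coc Λ g x : E) * ((Quotient.out j : Λ) : E))⁻¹ *
      (sec Λ (g • x) * ((Quotient.out (coc Λ g x • j) : Λ) : E)) =
      (((coc Λ g x * (Quotient.out j : Λ))⁻¹ * (Quotient.out (coc Λ g x • j) : Λ) : Λ) : E) := by
    rw [Subgroup.coe_mul, Subgroup.coe_inv, Subgroup.coe_mul]
    group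
  rw [h4]
  exact h1

theorem fsec_meas (j : Λ ⧸ Λ₀.subgroupOf Λ) : Measurable (fsec Λ Λ₀ j) := by
  have h1 : Measurable ((↑) : E → E ⧸ Λ₀) := QuotientGroup.continuous_mk.measurable
  exact h1.comp ((sec_meas Λ).mul_const _)

/-- **Finite-index subgroups of lattices are lattices.** -/
theorem exists_measure_fi (hfi : Λ₀.relIndex Λ ≠ 0) (ν : Measure (E ⧸ Λ)) [IsProbabilityMeasure ν]
    (hν : ∀ g : E, ν.map (fun x => g • x) = ν) :
    ∃ ν₀ : Measure (E ⧸ Λ₀), IsProbabilityMeasure ν₀ ∧ ∀ g : E, ν₀.map (fun x => g • x) = ν₀ := by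
  classical
  have hfi' : (Λ₀.subgroupOf Λ).FiniteIndex := ⟨hfi⟩
  have hfin : Finite (Λ ⧸ Λ₀.subgroupOf Λ) := Subgroup.finite_quotient_of_finiteIndex
  have := Fintype.ofFinite (Λ ⧸ Λ₀.subgroupOf Λ)
  obtain ⟨κ, hκ⟩ : ∃ κ : Measure (E ⧸ Λ₀), κ = ∑ j, ν.map (fsec Λ Λ₀ j) := ⟨_, rfl⟩
  have hap : ∀ A, MeasurableSet A → κ A = ∑ j, ν (fsec Λ Λ₀ j ⁻¹' A) := by
    intro A hA
    rw [hκ, Measure.finsetSum_apply]
    exact Finset.sum_congr rfl fun j _ => Measure.map_apply (fsec_meas Λ Λ₀ j) hA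
  have hinv : ∀ g : E, κ.map (fun x => g • x) = κ := by
    intro g
    have hgm : Measurable fun x : E ⧸ Λ₀ => g • x := (continuous_const_smul g).measurable
    refine Measure.ext fun A hA => ?_
    rw [Measure.map_apply hgm hA, hap _ (hgm hA), hap _ hA]
    have h1 : ∀ j, MeasurableSet (fsec Λ Λ₀ j ⁻¹' ((fun x : E ⧸ Λ₀ => g • x) ⁻¹' A)) := fun j =>
      fsec_meas Λ Λ₀ j (hgm hA)
    have h2 : ∀ j, MeasurableSet (fsec Λ Λ₀ j ⁻¹' A) := fun j => fsec_meas Λ Λ₀ j hA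
    have h3 : ∀ j, ν (fsec Λ Λ₀ j ⁻¹' A) =
        ν ((fun x : E ⧸ Λ => g • x) ⁻¹' (fsec Λ Λ₀ j ⁻¹' A)) := fun j => by
      rw [← Measure.map_apply (smul_meas Λ g) (h2 j), hν]
    simp only [h3]
    have h4 : ∀ j, MeasurableSet ((fun x : E ⧸ Λ => g • x) ⁻¹' (fsec Λ Λ₀ j ⁻¹' A)) := fun j =>
      smul_meas Λ g (h2 j)
    calc ∑ j, ν (fsec Λ Λ₀ j ⁻¹' ((fun x : E ⧸ Λ₀ => g • x) ⁻¹' A))
        = ∑ j, ∫⁻ x, (fsec Λ Λ₀ j ⁻¹' ((fun x : E ⧸ Λ₀ => g • x) ⁻¹' A)).indicator 1 x ∂ν :=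
          Finset.sum_congr rfl fun j _ => (lintegral_indicator_one (h1 j)).symm
      _ = ∫⁻ x, ∑ j, (fsec Λ Λ₀ j ⁻¹' ((fun x : E ⧸ Λ₀ => g • x) ⁻¹' A)).indicator 1 x ∂ν :=
          (lintegral_finsetSum _ fun j _ => measurable_one.indicator (h1 j)).symm
      _ = ∫⁻ x, ∑ j, ((fun x : E ⧸ Λ => g • x) ⁻¹' (fsec Λ Λ₀ j ⁻¹' A)).indicator 1 x ∂ν := by
          refine lintegral_congr fun x => ?_
          rw [← Equiv.sum_comp (MulAction.toPerm (coc Λ g x))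
            (fun j => ((fun x : E ⧸ Λ => g • x) ⁻¹' (fsec Λ Λ₀ j ⁻¹' A)).indicator
              (1 : E ⧸ Λ → ENNReal) x)]
          refine Finset.sum_congr rfl fun j _ => ?_
          refine Set.indicator_eq_indicator ?_ rfl
          change g • fsec Λ Λ₀ j x ∈ A ↔ fsec Λ Λ₀ (coc Λ g x • j) (g • x) ∈ A
          rw [fsec_smul]
      _ = ∑ j, ∫⁻ x, ((fun x : E ⧸ Λ => g • x) ⁻¹' (fsec Λ Λ₀ j ⁻¹' A)).indicator 1 x ∂ν :=
          lintegral_finsetSum _ fun j _ => measurable_one.indicator (h4 j)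
      _ = ∑ j, ν ((fun x : E ⧸ Λ => g • x) ⁻¹' (fsec Λ Λ₀ j ⁻¹' A)) :=
          Finset.sum_congr rfl fun j _ => lintegral_indicator_one (h4 j)
  have huniv : κ univ = Fintype.card (Λ ⧸ Λ₀.subgroupOf Λ) := by
    rw [hap _ MeasurableSet.univ]
    simp
  have hne : κ univ ≠ 0 := by
    rw [huniv]
    exact_mod_cast Fintype.card_ne_zero
  have hne' : κ univ ≠ ⊤ := by
    rw [huniv]
    exact ENNReal.natCast_ne_top _
  refine ⟨(κ univ)⁻¹ • κ, ⟨?_⟩, fun g => ?_⟩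
  · rw [Measure.smul_apply, smul_eq_mul, ENNReal.inv_mul_cancel hne hne']
  · rw [Measure.map_smul, hinv]

end main

/-- The image of a subgroup of finite index has finite index in the range. -/
theorem relIndex_map_range {G E : Type} [Group G] [Group E] (φ : G →* E) (Γ : Subgroup G)
    [hΓ : Γ.FiniteIndex] : (Γ.map φ).relIndex φ.range ≠ 0 := by
  have h1 : (Γ.map φ).subgroupOf φ.range = Γ.map φ.rangeRestrict := by
    ext ⟨x, hx⟩
    rw [Subgroup.mem_subgroupOf]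
    constructor
    · rintro ⟨y, hy, hyx⟩
      exact ⟨y, hy, Subtype.ext hyx⟩
    · rintro ⟨y, hy, hyx⟩
      exact ⟨y, hy, congrArg Subtype.val hyx⟩
  rw [Subgroup.relIndex, h1]
  intro h0
  have h5 := Subgroup.index_map_dvd Γ φ.rangeRestrict_surjective
  rw [h0] at h5
  exact hΓ.index_ne_zero (Nat.eq_zero_of_zero_dvd h5)

end Vale.Agent.P092.H377
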