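import Vale.Agent.P092.H377.NoInv

/-!
P092 (helper377): discrete subgroups of `SL_3(ℝ)` have finite balls; subgroups of finite covolume
have infinite conjugacy classes.
-/

open MeasureTheory Filter Topology

namespace Vale.Agent.P092.H377

open Vale.Agent.P092.H553 Matrix

lemma isCompact_hs_le (R : ℝ) : IsCompact {A : M3 | hs A ≤ R} := by
  have hcl : IsClosed {A : M3 | hs A ≤ R} := by
    unfold hs
    exact isClosed_le (by fun_prop) continuous_const
  have h : {A : M3 | hs A ≤ R} ⊆ Set.pi Set.univ (fun _ : Fin 3 => Set.pi Set.univ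
      (fun _ : Fin 3 => Set.Icc (-(1 + R)) (1 + R))) := by
    intro A hA i _ j _
    have h1 := sq_le_hs A i j
    have h2 : A i j ^ 2 ≤ R := h1.trans hA
    have hR : 0 ≤ R := (sq_nonneg _).trans h2
    exact ⟨by nlinarith, by nlinarith⟩
  exact (isCompact_univ_pi fun _ => isCompact_univ_pi fun _ => isCompact_Icc).of_isClosed_subset
    hcl h

/-- A discrete subgroup of `SL_3(ℝ)` has finite balls. -/
theorem finite_ball (Γ : Subgroup SL3R) [DiscreteTopology Γ] (R : ℝ) :
    {g : Γ | hs ((g : SL3R) : M3) ≤ R}.Finite := by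
  have h1 : IsClosed (Γ : Set SL3R) := Subgroup.isClosed_of_discrete
  have h2 : Topology.IsClosedEmbedding (fun g : Γ => (g : SL3R)) := h1.isClosedEmbedding_subtypeVal
  have h3 : Topology.IsClosedEmbedding (fun g : SL3R => (g : M3)) :=
    Matrix.SpecialLinearGroup.isClosedEmbedding_val
  have h4 : IsCompact ((fun g : Γ => ((g : SL3R) : M3)) ⁻¹' {A : M3 | hs A ≤ R}) :=
    (h3.comp h2).isCompact_preimage (isCompact_hs_le R)
  exact h4.finite_of_discrete

/-- The matrix unit `E_{i,i+1}`. -/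
noncomputable def EE (i : Fin 3) : M3 := Matrix.single i (i + 1) 1

lemma TT_val (i : Fin 3) (m : ℝ) : (TT i m : M3) = 1 + m • EE i := by
  show transvection i (i + 1) m = _
  rw [transvection, EE, Matrix.smul_single]
  simp

lemma EE_sq (i : Fin 3) : EE i * EE i = 0 := by
  rw [EE, Matrix.single_mul_single_of_ne]
  exact (ne_succ3 i).symm

lemma conj_TT (i : Fin 3) (m : ℝ) (x : M3) :
    (TT i m : M3) * x * ((TT i m)⁻¹ : SL3R).1 =
      x + m • (EE i * x - x * EE i) - m ^ 2 • (EE i * x * EE i) := by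
  rw [TT_inv]
  show (TT i m : M3) * x * (TT i (-m) : M3) = _
  rw [TT_val, TT_val]
  simp only [Matrix.add_mul, Matrix.mul_add, Matrix.one_mul, Matrix.mul_one, Matrix.smul_mul,
    Matrix.mul_smul, neg_smul, Matrix.mul_neg, smul_sub, smul_add]
  rw [sq, mul_smul]
  abel

/-- A matrix commuting with the three matrix units is scalar. -/
lemma scalar_of_comm (x : M3) (h : ∀ i, EE i * x = x * EE i) : ∃ c : ℝ, x = c • 1 := by
  have key : ∀ i a b, (EE i * x) a b = (x * EE i) a b := fun i a b => by rw [h i]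
  have e1 : ∀ i a b, (EE i * x) a b = if a = i then x (i + 1) b else 0 := by
    intro i a b
    simp only [EE, Matrix.mul_apply, Matrix.single, Matrix.of_apply]
    by_cases ha : a = i
    · subst ha; simp
    · simp [ha, Ne.symm ha]
  have e2 : ∀ i a b, (x * EE i) a b = if b = i + 1 then x a i else 0 := by
    intro i a b
    simp only [EE, Matrix.mul_apply, Matrix.single, Matrix.of_apply]
    by_cases hb : b = i + 1
    · subst hb; simp
    · simp [hb, Ne.symm hb]
  have k : ∀ i a b, (if a = i then x (i + 1) b else 0) = if b = i + 1 then x a i else 0 := by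
    intro i a b
    rw [← e1, ← e2]; exact key i a b
  refine ⟨x 0 0, ?_⟩
  have a1 := k 0 0 1
  have a2 := k 1 1 2
  have a3 := k 0 1 1
  have a4 := k 0 2 1
  have a5 := k 1 0 2
  have a6 := k 1 2 2
  have a7 := k 2 0 0
  have a8 := k 2 1 0
  simp at a1 a2 a3 a4 a5 a6 a7 a8
  ext i j
  clear h key e1 e2 k
  fin_cases i <;> fin_cases j <;> simp <;> linarith

lemma tendsto_hs (x A B : M3) (h : A ≠ 0 ∨ B ≠ 0) :
    Tendsto (fun m : ℕ => hs (x + (m : ℝ) • A - (m : ℝ) ^ 2 • B)) atTop atTop := by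
  obtain ⟨i, j, hij⟩ : ∃ i j, A i j ≠ 0 ∨ B i j ≠ 0 := by
    by_contra hcon
    push Not at hcon
    rcases h with h | h
    · exact h (by ext i j; exact (hcon i j).1)
    · exact h (by ext i j; exact (hcon i j).2)
  set P : Polynomial ℝ := Polynomial.C (-(B i j)) * Polynomial.X ^ 2 +
    Polynomial.C (A i j) * Polynomial.X + Polynomial.C (x i j) with hP
  have hdeg : 0 < P.degree := by
    rcases eq_or_ne (B i j) 0 with hb | hb
    · have ha : A i j ≠ 0 := hij.resolve_right (fun h => h hb)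
      rw [hP, hb]
      simp only [neg_zero, map_zero, zero_mul, zero_add]
      rw [Polynomial.degree_linear ha]
      norm_num
    · rw [hP, Polynomial.degree_quadratic (neg_ne_zero.2 hb)]
      norm_num
  have h1 : Tendsto (fun m : ℕ => |P.eval (m : ℝ)|) atTop atTop :=
    (P.abs_tendsto_atTop hdeg).comp tendsto_natCast_atTop_atTop
  have h2 : Tendsto (fun m : ℕ => |P.eval (m : ℝ)| ^ 2) atTop atTop :=
    (tendsto_pow_atTop (by norm_num)).comp h1
  refine tendsto_atTop_mono (fun m => ?_) h2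
  have h3 := sq_le_hs (x + (m : ℝ) • A - (m : ℝ) ^ 2 • B) i j
  refine le_trans (le_of_eq ?_) h3
  rw [sq_abs, hP]
  simp
  ring

/-- A bounded positive function on matrices, small at infinity. -/
noncomputable def gf (x : M3) : ℝ := (1 + hs x)⁻¹

lemma gf_pos (x : M3) : 0 < gf x := inv_pos.2 (by have := hs_nn x; linarith)

lemma gf_le (x : M3) : gf x ≤ 1 := inv_le_one_of_one_le₀ (by have := hs_nn x; linarith)

lemma continuous_gf : Continuous gf := by
  unfold gf
  refine Continuous.inv₀ ?_ fun x => by have := hs_nn x; positivity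
  unfold hs
  fun_prop

/-- Conjugate of a matrix. -/
noncomputable def cj3 (g : SL3R) (x : M3) : M3 := (g : M3) * x * ((g⁻¹ : SL3R) : M3)

lemma cj3_mul (g h : SL3R) (x : M3) : cj3 (g * h) x = cj3 g (cj3 h x) := by
  simp only [cj3, _root_.mul_inv_rev, Matrix.SpecialLinearGroup.coe_mul, Matrix.mul_assoc]

lemma cj3_val (g c : SL3R) : cj3 g (c : M3) = ((g * c * g⁻¹ : SL3R) : M3) := by
  simp only [cj3, Matrix.SpecialLinearGroup.coe_mul]

lemma continuous_cj3 (x : M3) : Continuous (fun g : SL3R => cj3 g x) := by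
  unfold cj3
  have h0 : Continuous (fun g : SL3R => (g : M3)) := continuous_subtype_val
  have h1 : Continuous (fun g : SL3R => ((g⁻¹ : SL3R) : M3)) := by
    simp only [Matrix.SpecialLinearGroup.coe_inv]
    exact h0.matrix_adjugate
  exact (h0.matrix_mul continuous_const).matrix_mul h1

/-- Limit of the values along the powers of a transvection. -/
lemma gf_limit (i : Fin 3) (x : M3) :
    ∃ l : ℝ, Tendsto (fun m : ℕ => gf (cj3 (TT i m) x)) atTop (𝓝 l) ∧ l ≤ gf x ∧
      (l = gf x → EE i * x = x * EE i) := by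
  by_cases h : EE i * x = x * EE i
  · refine ⟨gf x, ?_, le_refl _, fun _ => h⟩
    have : ∀ m : ℕ, cj3 (TT i m) x = x := by
      intro m
      rw [cj3, conj_TT, h, sub_self, smul_zero, add_zero, Matrix.mul_assoc, EE_sq]
      simp
    simp only [this]
    exact tendsto_const_nhds
  · refine ⟨0, ?_, (gf_pos x).le, fun h0 => absurd h0 (gf_pos x).ne⟩
    have h1 : EE i * x - x * EE i ≠ 0 := sub_ne_zero.2 h
    have h2 := tendsto_hs x _ (EE i * x * EE i) (Or.inl h1)
    have h3 : Tendsto (fun m : ℕ => 1 + hs (x + (m : ℝ) • (EE i * x - x * EE i) -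
        (m : ℝ) ^ 2 • (EE i * x * EE i))) atTop atTop := tendsto_atTop_add_const_left _ _ h2
    refine (tendsto_inv_atTop_zero.comp h3).congr fun m => ?_
    simp only [Function.comp, gf, cj3, conj_TT]

/-- A subgroup of `SL_3(ℝ)` of finite covolume has infinite conjugacy classes. -/
theorem icc_of_covolume (Γ : Subgroup SL3R) [MeasurableSpace (SL3R ⧸ Γ)]
    [BorelSpace (SL3R ⧸ Γ)] (μ : Measure (SL3R ⧸ Γ)) [IsFiniteMeasure μ]
    [SMulInvariantMeasure SL3R (SL3R ⧸ Γ) μ] (hμ : μ ≠ 0) :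
    ∀ γ ∈ Γ, γ ≠ 1 → {x : SL3R | ∃ s ∈ Γ, x = s * γ * s⁻¹}.Infinite := by
  classical
  intro γ hγ hne hfin
  set C : Finset SL3R := hfin.toFinset with hC
  have hmem : ∀ x, x ∈ C ↔ ∃ s ∈ Γ, x = s * γ * s⁻¹ := fun x => by
    rw [hC, Set.Finite.mem_toFinset]; rfl
  have hγC : γ ∈ C := (hmem γ).2 ⟨1, Γ.one_mem, by simp⟩
  -- the function on the group
  let Φ : SL3R → ℝ := fun g => ∑ c ∈ C, gf (cj3 g (c : M3))
  have hΦinv : ∀ g s, s ∈ Γ → Φ (g * s) = Φ g := by
    intro g s hs
    show ∑ c ∈ C, gf (cj3 (g * s) (c : M3)) = ∑ c ∈ C, gf (cj3 g (c : M3))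
    refine Finset.sum_bij' (fun c _ => s * c * s⁻¹) (fun c _ => s⁻¹ * c * s) ?_ ?_ ?_ ?_ ?_
    · intro c hc
      obtain ⟨t, ht, rfl⟩ := (hmem c).1 hc
      exact (hmem _).2 ⟨s * t, Γ.mul_mem hs ht, by group⟩
    · intro c hc
      obtain ⟨t, ht, rfl⟩ := (hmem c).1 hc
      exact (hmem _).2 ⟨s⁻¹ * t, Γ.mul_mem (Γ.inv_mem hs) ht, by group⟩
    · intro c _; group
    · intro c _; group
    · intro c _
      rw [cj3_mul, cj3_val s c]
  let φ : SL3R ⧸ Γ → ℝ := Quotient.lift Φ (by
    intro g h hgh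
    have h1 : g⁻¹ * h ∈ Γ := QuotientGroup.leftRel_apply.1 hgh
    have h2 := hΦinv g _ h1
    rw [mul_inv_cancel_left] at h2
    exact h2.symm)
  have hmk : ∀ g : SL3R, φ (g : SL3R ⧸ Γ) = Φ g := fun g => rfl
  have hΦc : Continuous Φ := continuous_finsetSum _ fun c _ =>
    continuous_gf.comp (continuous_cj3 _)
  have hφc : Continuous φ := continuous_quot_lift _ hΦc
  have hφ0 : ∀ q, 0 ≤ φ q := by
    intro q
    obtain ⟨g, rfl⟩ := QuotientGroup.mk_surjective q
    exact Finset.sum_nonneg fun c _ => (gf_pos _).le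
  have hφ1 : ∀ q, φ q ≤ C.card := by
    intro q
    obtain ⟨g, rfl⟩ := QuotientGroup.mk_surjective q
    rw [hmk]
    calc Φ g ≤ ∑ _c ∈ C, (1 : ℝ) := Finset.sum_le_sum fun c _ => gf_le _
      _ = C.card := by simp
  have hφn : ∀ q, ‖φ q‖ ≤ C.card := fun q => by
    rw [Real.norm_eq_abs, abs_of_nonneg (hφ0 q)]; exact hφ1 q
  have hint : Integrable φ μ := Integrable.of_bound hφc.aestronglyMeasurable (C.card : ℝ)
    (Eventually.of_forall hφn)
  -- almost everywhere commutation
  have hae : ∀ i : Fin 3, ∀ᵐ q ∂μ, ∀ g : SL3R, (g : SL3R ⧸ Γ) = q →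
      ∀ c ∈ C, EE i * cj3 g (c : M3) = cj3 g (c : M3) * EE i := by
    intro i
    have hlim : ∀ q : SL3R ⧸ Γ, ∃ l : ℝ,
        Tendsto (fun m : ℕ => φ (TT i m • q)) atTop (𝓝 l) ∧ l ≤ φ q ∧
        (l = φ q → ∀ g : SL3R, (g : SL3R ⧸ Γ) = q →
          ∀ c ∈ C, EE i * cj3 g (c : M3) = cj3 g (c : M3) * EE i) := by
      intro q
      obtain ⟨g, rfl⟩ := QuotientGroup.mk_surjective q
      choose l hl1 hl2 hl3 using fun x : M3 => gf_limit i x
      have hsum : ∀ h : SL3R, Tendsto (fun m : ℕ => φ (TT i m • (h : SL3R ⧸ Γ))) atTop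
          (𝓝 (∑ c ∈ C, l (cj3 h (c : M3)))) := by
        intro h
        have : ∀ m : ℕ, φ (TT i m • (h : SL3R ⧸ Γ)) =
            ∑ c ∈ C, gf (cj3 (TT i m) (cj3 h (c : M3))) := by
          intro m
          show Φ (TT i m * h) = _
          simp only [Φ, cj3_mul]
        simp only [this]
        exact tendsto_finsetSum _ fun c _ => hl1 _
      refine ⟨∑ c ∈ C, l (cj3 g (c : M3)), hsum g,
        Finset.sum_le_sum fun c _ => hl2 _, fun heq h hhg c hc => ?_⟩
      have h1 := tendsto_nhds_unique (hsum h) (hhg ▸ hsum g)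
      have h2 : ∑ c ∈ C, l (cj3 h (c : M3)) = ∑ c ∈ C, gf (cj3 h (c : M3)) := by
        rw [h1, heq, ← hhg]
        rfl
      have h3 := (Finset.sum_eq_sum_iff_of_le (s := C)
        (f := fun c : SL3R => l (cj3 h (c : M3))) (g := fun c : SL3R => gf (cj3 h (c : M3)))
        (fun c _ => hl2 _)).1 h2 c hc
      exact hl3 _ h3
    choose lim hlim1 hlim2 hlim3 using hlim
    have hmeas : ∀ m : ℕ, AEStronglyMeasurable (fun q => φ (TT i m • q)) μ := fun m =>
      (hφc.comp (continuous_const_smul (TT i (m : ℝ)))).aestronglyMeasurable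
    have hconv := tendsto_integral_of_dominated_convergence (μ := μ)
      (F := fun (m : ℕ) q => φ (TT i m • q)) (f := lim) (fun _ => (C.card : ℝ))
      hmeas (integrable_const _) (fun m => Eventually.of_forall fun q => hφn _)
      (Eventually.of_forall hlim1)
    have hconst : ∀ m : ℕ, ∫ q, φ (TT i m • q) ∂μ = ∫ q, φ q ∂μ := fun m =>
      integral_smul_eq_self φ
    simp only [hconst] at hconv
    have heq : ∫ q, lim q ∂μ = ∫ q, φ q ∂μ := tendsto_nhds_unique hconv tendsto_const_nhds |>.symm ▸ rfl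
    have hlimm : AEStronglyMeasurable lim μ :=
      aestronglyMeasurable_of_tendsto_ae atTop hmeas (Eventually.of_forall hlim1)
    have hlim0 : ∀ q, 0 ≤ lim q := fun q => ge_of_tendsto' (hlim1 q) fun m => hφ0 _
    have hlimi : Integrable lim μ := Integrable.of_bound hlimm (C.card : ℝ)
      (Eventually.of_forall fun q => by
        rw [Real.norm_eq_abs, abs_of_nonneg (hlim0 q)]; exact (hlim2 q).trans (hφ1 q))
    have hzero : ∫ q, (φ q - lim q) ∂μ = 0 := by
      rw [integral_sub hint hlimi, heq, sub_self]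
    have h0 := (integral_eq_zero_iff_of_nonneg (fun q => sub_nonneg.2 (hlim2 q))
      (hint.sub hlimi)).1 hzero
    filter_upwards [h0] with q hq
    exact hlim3 q (sub_eq_zero.1 hq).symm
  have hall : ∀ᵐ q ∂μ, ∀ i : Fin 3, ∀ g : SL3R, (g : SL3R ⧸ Γ) = q →
      ∀ c ∈ C, EE i * cj3 g (c : M3) = cj3 g (c : M3) * EE i := ae_all_iff.2 hae
  have hne0 : (ae μ).NeBot := ae_neBot.2 hμ
  obtain ⟨q, hq⟩ := hall.exists
  obtain ⟨g, rfl⟩ := QuotientGroup.mk_surjective q
  obtain ⟨k, hk⟩ := scalar_of_comm (cj3 g (γ : M3)) fun i => hq i g rfl γ hγC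
  -- the scalar is one
  have hdet : k ^ 3 = 1 := by
    have h1 : (cj3 g (γ : M3)).det = 1 := by
      rw [cj3_val]; exact (g * γ * g⁻¹).det_coe
    rw [hk, Matrix.det_smul, Matrix.det_one, mul_one] at h1
    simpa using h1
  have hk1 : k = 1 := by
    have : (k - 1) * (k ^ 2 + k + 1) = 0 := by ring_nf; linarith
    rcases mul_eq_zero.1 this with h | h
    · linarith
    · nlinarith [sq_nonneg (k + 1), sq_nonneg k]
  apply hne
  have h2 : g * γ * g⁻¹ = 1 := by
    apply Subtype.ext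
    rw [← cj3_val, hk, hk1, one_smul]
    rfl
  have h3 : γ = g⁻¹ * (g * γ * g⁻¹) * g := by group
  rw [h3, h2]; group

end Vale.Agent.P092.H377
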