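import Vale.Agent.P092.H377.Psd

/-!
P092 (helper377): a subgroup of `SL_3(ℝ)` of finite covolume has no invariant state on `C(XX)`.
-/

open MeasureTheory

namespace Vale.Agent.P092.H377

open Vale.Agent.P092.H553 Matrix

lemma ne_succ3 (i : Fin 3) : i ≠ i + 1 := by decide +revert

/-- The transvection `1 + m E_{i,i+1}`. -/
noncomputable def TT (i : Fin 3) (m : ℝ) : SL3R :=
  ⟨transvection i (i + 1) m, Matrix.det_transvection_of_ne _ _ (ne_succ3 i) _⟩

lemma TT_inv (i : Fin 3) (m : ℝ) : (TT i m)⁻¹ = TT i (-m) := by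
  rw [inv_eq_iff_mul_eq_one]
  apply Subtype.ext
  rw [Matrix.SpecialLinearGroup.coe_mul]
  show transvection i (i + 1) m * transvection i (i + 1) (-m) = _
  rw [Matrix.transvection_mul_transvection_same _ _ (ne_succ3 i), add_neg_cancel,
    Matrix.transvection_zero]
  rfl

lemma cjg_TT (i : Fin 3) (m : ℝ) (N : M3) : cjg (TT i m) N i i = N i i := by
  rw [cjg, TT_inv]
  show ((transvection i (i + 1) (-m))ᵀ * N * transvection i (i + 1) (-m)) i i = N i i
  fin_cases i <;>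
    simp [transvection, Matrix.mul_apply, Matrix.single, Matrix.one_apply]

lemma tc_TT (i : Fin 3) (m : ℝ) {N : M3} (h : N ∈ XX) :
    tc (TT i m) N = 1 - 2 * m * N i (i + 1) + m ^ 2 * N i i := by
  have h1 := h.2.2
  have h0 := h.1
  rw [tc]
  simp only [cjg, TT_inv]
  show ∑ k, ((transvection i (i + 1) (-m))ᵀ * N * transvection i (i + 1) (-m)) k k = _
  rw [← h1]
  fin_cases i
  · simp [transvection, Matrix.mul_apply, Fin.sum_univ_three, Matrix.single, Matrix.one_apply]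
    rw [h0 1 0]; ring
  · simp [transvection, Matrix.mul_apply, Fin.sum_univ_three, Matrix.single, Matrix.one_apply]
    rw [h0 2 1]; ring
  · simp [transvection, Matrix.mul_apply, Fin.sum_univ_three, Matrix.single, Matrix.one_apply]
    rw [h0 2 0]; ring

/-- The decay of the diagonal entries under transvections. -/
lemma pact_TT_le (i : Fin 3) (m : ℝ) {N : M3} (h : N ∈ XX) :
    pact (TT i m) N i i * (1 + (m - N i (i + 1) / N i i) ^ 2) ≤ 1 := by
  have hps := (mem_XX.1 h).1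
  have ht := tc_pos (TT i m) h
  simp only [pact, Matrix.smul_apply, smul_eq_mul, cjg_TT]
  rcases (hps.diag i).lt_or_eq with hi | hi
  · have hoff := hps.off (i + 1) i (-(N i (i + 1) / N i i))
    rw [hps.1 (i + 1) i] at hoff
    have hsum : N i i + N (i + 1) (i + 1) ≤ 1 := by
      have h1 := h.2.2
      have d0 := hps.diag 0
      have d1 := hps.diag 1
      have d2 := hps.diag 2
      rw [Fin.sum_univ_three] at h1
      fin_cases i <;> simp <;> linarith
    set x := N i i with hx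
    set y := N i (i + 1) with hy
    have hya : y = (y / x) * x := by field_simp
    set a := y / x with ha
    have hT := tc_TT i m h
    rw [← hx, ← hy] at hT
    rw [mul_assoc, inv_mul_le_iff₀ ht, mul_one, hT]
    rw [hya] at hoff ⊢
    nlinarith
  · rw [← hi]; simp

lemma summable_quad : Summable (fun n : ℤ => (1 + (n : ℝ) ^ 2)⁻¹) := by
  refine Summable.of_nonneg_of_le (fun n => by positivity) (fun n => ?_) summable_h
  refine inv_anti₀ (by positivity) (max_le ?_ ?_)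
  · have := sq_nonneg (n : ℝ); linarith
  · linarith

lemma sum_quad_le (a : ℝ) (M : ℕ) :
    ∑ m ∈ Finset.range M, (1 + ((m : ℝ) - a) ^ 2)⁻¹ ≤ 3 * ∑' n : ℤ, (1 + (n : ℝ) ^ 2)⁻¹ := by
  have h1 : ∀ m : ℕ, (1 + ((m : ℝ) - a) ^ 2)⁻¹ ≤
      3 * (1 + ((((m : ℤ) - ⌊a⌋ : ℤ)) : ℝ) ^ 2)⁻¹ := by
    intro m
    have l1 := Int.floor_le a
    have l2 := Int.lt_floor_add_one a
    push_cast
    rw [← div_eq_mul_inv, ← one_div, div_le_div_iff₀ (by positivity) (by positivity)]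
    nlinarith [sq_nonneg (((m : ℝ) - a) - (a - ⌊a⌋)), sq_nonneg ((m : ℝ) - a)]
  calc ∑ m ∈ Finset.range M, (1 + ((m : ℝ) - a) ^ 2)⁻¹
      ≤ ∑ m ∈ Finset.range M, 3 * (1 + ((((m : ℤ) - ⌊a⌋ : ℤ)) : ℝ) ^ 2)⁻¹ :=
        Finset.sum_le_sum fun m _ => h1 m
    _ = 3 * ∑ m ∈ Finset.range M, (1 + ((((m : ℤ) - ⌊a⌋ : ℤ)) : ℝ) ^ 2)⁻¹ := by
        rw [Finset.mul_sum]
    _ = 3 * ∑ n ∈ (Finset.range M).image (fun m : ℕ => (m : ℤ) - ⌊a⌋),
          (1 + (n : ℝ) ^ 2)⁻¹ := by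
        rw [Finset.sum_image]
        intro m _ m' _ hmm
        simpa using hmm
    _ ≤ 3 * ∑' n : ℤ, (1 + (n : ℝ) ^ 2)⁻¹ := by
        refine mul_le_mul_of_nonneg_left ?_ (by norm_num)
        exact summable_quad.sum_le_tsum _ fun n _ => by positivity

/-- The diagonal coordinate functions on `XX`. -/
def dg (i : Fin 3) : C(XX, ℝ) :=
  ⟨fun N => (N : M3) i i,
    (continuous_apply i).comp ((continuous_apply i).comp continuous_subtype_val)⟩

/-- There is no state on `C(XX)` invariant under the integral transvections `TT i m`. -/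
theorem no_inv_TT (L : C(XX, ℝ) →ₗ[ℝ] ℝ) (hL : ∀ F, 0 ≤ F → 0 ≤ L F) (h1 : 0 < L 1)
    (hinv : ∀ (i : Fin 3) (m : ℕ) (F : C(XX, ℝ)), L (actX.pull (TT i m) F) = L F) : False := by
  set C : ℝ := 3 * ∑' n : ℤ, (1 + (n : ℝ) ^ 2)⁻¹ with hC
  have hz : ∀ i, L (dg i) = 0 := by
    intro i
    have hnn : 0 ≤ L (dg i) := hL _ fun N => (mem_XX.1 N.2).1.diag i
    have hM : ∀ M : ℕ, M * L (dg i) ≤ C * L 1 := by
      intro M
      have h2 : ∑ m ∈ Finset.range M, L (actX.pull (TT i m) (dg i)) = M * L (dg i) := by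
        simp [hinv]
      rw [← h2, ← map_sum, ← smul_eq_mul, ← map_smul, ← sub_nonneg, ← map_sub]
      refine hL _ ?_
      rw [ContinuousMap.le_def]
      intro N
      rw [ContinuousMap.zero_apply, ContinuousMap.sub_apply, ContinuousMap.smul_apply,
        ContinuousMap.one_apply, ContinuousMap.sum_apply, smul_eq_mul, mul_one, sub_nonneg]
      refine le_trans (Finset.sum_le_sum fun m _ => ?_)
        (sum_quad_le ((N : M3) i (i + 1) / (N : M3) i i) M)
      have h3 := pact_TT_le i m N.2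
      rw [← one_div, le_div_iff₀ (by positivity)]
      exact h3
    by_contra hne
    have hpos : 0 < L (dg i) := lt_of_le_of_ne hnn (Ne.symm hne)
    obtain ⟨M, hM'⟩ := exists_nat_gt (C * L 1 / L (dg i))
    rw [div_lt_iff₀ hpos] at hM'
    exact absurd (hM M) (not_le.2 hM')
  have hsum : (1 : C(XX, ℝ)) = ∑ i, dg i := by
    ext N
    simp only [ContinuousMap.sum_apply, ContinuousMap.one_apply]
    exact (N.2.2.2).symm
  rw [hsum, map_sum] at h1
  simp [hz] at h1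

/-- A subgroup of `SL_3(ℝ)` of finite covolume (`SL_3(ℝ) ⧸ Γ` carries a nonzero finite invariant
Borel measure) has no invariant state on `C(XX)`. -/
theorem no_inv_of_covolume (Γ : Subgroup SL3R) [MeasurableSpace (SL3R ⧸ Γ)]
    [BorelSpace (SL3R ⧸ Γ)] (μ : Measure (SL3R ⧸ Γ)) [IsFiniteMeasure μ]
    [SMulInvariantMeasure SL3R (SL3R ⧸ Γ) μ] (hμ : μ ≠ 0)
    (L : C(XX, ℝ) →ₗ[ℝ] ℝ) (hL : ∀ F, 0 ≤ F → 0 ≤ L F) (h1 : 0 < L 1)
    (hinv : ∀ s ∈ Γ, ∀ F, L (actX.pull s F) = L F) : False := by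
  obtain ⟨L', hL', h1', hinv'⟩ := avg_state actX Γ μ hμ L hL h1 hinv
  exact no_inv_TT L' hL' h1' fun i m F => hinv' _ F

/-- `1/3` in `XX`. -/
noncomputable def c0 : XX := ⟨(3 : ℝ)⁻¹ • (1 : M3), by
  rw [mem_XX]
  refine ⟨⟨fun i j => ?_, fun v => ?_⟩, ?_⟩
  · simp only [Matrix.smul_apply, Matrix.one_apply, eq_comm]
  · have : qf ((3 : ℝ)⁻¹ • (1 : M3)) v = (3 : ℝ)⁻¹ * (v 0 ^ 2 + v 1 ^ 2 + v 2 ^ 2) := by
      simp [qf, Fin.sum_univ_three, Matrix.one_apply]
      ring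
    rw [this]; positivity
  · simp⟩

/-- `g ↦ g⁻ᵀ g⁻¹ / ‖g⁻¹‖²`, with values in `XX`. -/
noncomputable def nsx (g : SL3R) : XX := aX g c0

lemma nsx_mul (s g : SL3R) : nsx (s * g) = aX s (nsx g) := Subtype.ext (pact_mul s g c0.2)

lemma nsx_val (g : SL3R) : (nsx g : M3) =
    (hs ((g⁻¹ : SL3R) : M3))⁻¹ • (((g⁻¹ : SL3R) : M3)ᵀ * ((g⁻¹ : SL3R) : M3)) := by
  have h1 : cjg g (c0 : M3) = (3 : ℝ)⁻¹ • (((g⁻¹ : SL3R) : M3)ᵀ * ((g⁻¹ : SL3R) : M3)) := by
    show cjg g ((3 : ℝ)⁻¹ • (1 : M3)) = _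
    rw [cjg_smul]
    simp only [cjg, Matrix.mul_one]
  have h2 : tc g (c0 : M3) = (3 : ℝ)⁻¹ * hs ((g⁻¹ : SL3R) : M3) := by
    rw [tc, h1]
    simp only [Matrix.smul_apply, Matrix.mul_apply, Matrix.transpose_apply, smul_eq_mul,
      ← Finset.mul_sum, hs]
    congr 1
    rw [Finset.sum_comm]
    exact Finset.sum_congr rfl fun i _ => Finset.sum_congr rfl fun j _ => by ring
  show (tc g (c0 : M3))⁻¹ • cjg g (c0 : M3) = _
  rw [h1, h2, smul_smul]
  congr 1
  rw [_root_.mul_inv_rev, inv_inv, mul_assoc, mul_inv_cancel₀ (by norm_num), mul_one]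

/-- The form used for group factors: a positive linear functional `ℓ` on the functions
`g ↦ F (nsx (φ g))`, invariant under left translations by `G`, cannot exist if the image of `φ`
contains a subgroup of finite covolume. -/
theorem no_inv_group {G : Type*} [Group G] (φ : G →* SL3R) (Γ : Subgroup SL3R)
    (hΓ : ∀ s ∈ Γ, ∃ g, φ g = s) [MeasurableSpace (SL3R ⧸ Γ)]
    [BorelSpace (SL3R ⧸ Γ)] (μ : Measure (SL3R ⧸ Γ)) [IsFiniteMeasure μ]
    [SMulInvariantMeasure SL3R (SL3R ⧸ Γ) μ] (hμ : μ ≠ 0)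
    (ℓ : (G → ℝ) → ℝ)
    (hadd : ∀ F F' : C(XX, ℝ), ℓ (fun g => F (nsx (φ g)) + F' (nsx (φ g))) =
      ℓ (fun g => F (nsx (φ g))) + ℓ (fun g => F' (nsx (φ g))))
    (hsmul : ∀ (c : ℝ) (F : C(XX, ℝ)), ℓ (fun g => c * F (nsx (φ g))) =
      c * ℓ (fun g => F (nsx (φ g))))
    (hpos : ∀ F : C(XX, ℝ), (∀ N, 0 ≤ F N) → 0 ≤ ℓ (fun g => F (nsx (φ g))))
    (hone : 0 < ℓ (fun _ => 1))
    (hinv : ∀ (s : G) (F : C(XX, ℝ)), ℓ (fun g => F (nsx (φ (s * g)))) =
      ℓ (fun g => F (nsx (φ g)))) : False := by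
  let L : C(XX, ℝ) →ₗ[ℝ] ℝ :=
    { toFun := fun F => ℓ (fun g => F (nsx (φ g)))
      map_add' := hadd
      map_smul' := hsmul }
  refine no_inv_of_covolume Γ μ hμ L (fun F hF => hpos F fun N => hF N) hone ?_
  intro s hs F
  obtain ⟨t, rfl⟩ := hΓ s hs
  have h := hinv t F
  simp only [map_mul, nsx_mul] at h
  exact h

end Vale.Agent.P092.H377
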