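import Vale.Agent.P092.H377.SummL
import Vale.Agent.P092.H377.Avg

/-!
P092 (helper377): the compact space `XX` of positive semidefinite real `3 × 3` matrices of trace
one with the action `N ↦ s⁻ᵀ N s⁻¹ / tr` of `SL_3(ℝ)`: it has no invariant state for the integral
transvections, hence none for a subgroup of finite covolume.
-/

open MeasureTheory

namespace Vale.Agent.P092.H377

open Vale.Agent.P092.H553 Matrix

/-- Quadratic form. -/
def qf (N : M3) (v : Fin 3 → ℝ) : ℝ := ∑ i, ∑ j, v i * N i j * v j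

/-- Positive semidefinite matrices of trace one. -/
def XX : Set M3 :=
  {N | (∀ i j, N i j = N j i) ∧ (∀ v, 0 ≤ qf N v) ∧ ∑ i, N i i = 1}

/-- Positive semidefinite matrices. -/
def PS (N : M3) : Prop := (∀ i j, N i j = N j i) ∧ ∀ v, 0 ≤ qf N v

lemma qf_mul (N A : M3) (v : Fin 3 → ℝ) : qf (Aᵀ * N * A) v = qf N (A *ᵥ v) := by
  simp only [qf, Matrix.mul_apply, Matrix.transpose_apply, Matrix.mulVec, dotProduct,
    Fin.sum_univ_three]
  ring

lemma PS.conj {N : M3} (h : PS N) (A : M3) : PS (Aᵀ * N * A) := by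
  refine ⟨fun i j => ?_, fun v => ?_⟩
  · have h0 := h.1
    simp only [Matrix.mul_apply, Matrix.transpose_apply, Fin.sum_univ_three]
    rw [h0 1 0, h0 2 0, h0 2 1]
    ring
  · rw [qf_mul]; exact h.2 _

lemma PS.diag {N : M3} (h : PS N) (i : Fin 3) : 0 ≤ N i i := by
  have := h.2 (Pi.single i 1)
  fin_cases i <;> simpa [qf, Fin.sum_univ_three] using this

lemma PS.off {N : M3} (h : PS N) (i j : Fin 3) (x : ℝ) :
    0 ≤ N i i + 2 * x * N i j + x ^ 2 * N j j := by
  by_cases hij : i = j
  · subst hij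
    have := h.diag i
    nlinarith [sq_nonneg (1 + x)]
  · have key : qf N (Pi.single i 1 + Pi.single j x) =
        N i i + x * N i j + x * N j i + x ^ 2 * N j j := by
      fin_cases i <;> fin_cases j <;>
        first
        | exact absurd rfl hij
        | (simp [qf, Fin.sum_univ_three, Pi.single_apply]; try ring)
    have h2 := h.2 (Pi.single i 1 + Pi.single j x)
    rw [key, h.1 j i] at h2
    linarith

lemma PS.abs_le {N : M3} (h : PS N) (i j : Fin 3) : 2 * |N i j| ≤ N i i + N j j := by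
  have h1 := h.off i j 1
  have h2 := h.off i j (-1)
  rcases abs_cases (N i j) with h3 | h3 <;> linarith

lemma PS.eq_zero {N : M3} (h : PS N) (ht : ∑ i, N i i = 0) : N = 0 := by
  have hd : ∀ i, N i i = 0 := by
    intro i
    rw [Fin.sum_univ_three] at ht
    have h0 := h.diag 0
    have h1 := h.diag 1
    have h2 := h.diag 2
    fin_cases i <;> simp <;> linarith
  ext i j
  have := h.abs_le i j
  rw [hd i, hd j, add_zero] at this
  have h3 := abs_nonneg (N i j)
  have h4 : |N i j| = 0 := by linarith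
  simpa using h4

lemma mem_XX {N : M3} : N ∈ XX ↔ PS N ∧ ∑ i, N i i = 1 :=
  ⟨fun h => ⟨⟨h.1, h.2.1⟩, h.2.2⟩, fun h => ⟨h.1.1, h.1.2, h.2⟩⟩

lemma abs_le_one_of_mem {N : M3} (h : N ∈ XX) (i j : Fin 3) : |N i j| ≤ 1 := by
  rw [mem_XX] at h
  have h1 := h.1.abs_le i j
  have h2 := h.2
  rw [Fin.sum_univ_three] at h2
  have h3 := h.1.diag 0
  have h4 := h.1.diag 1
  have h5 := h.1.diag 2
  have h6 : ∀ k, N k k ≤ 1 := by
    intro k; fin_cases k <;> simp <;> linarith
  linarith [h6 i, h6 j]

lemma isClosed_XX : IsClosed XX := by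
  have h1 : IsClosed {N : M3 | ∀ i j, N i j = N j i} := by
    simp only [Set.ofPred_forall]
    exact isClosed_iInter fun i => isClosed_iInter fun j =>
      isClosed_eq (by fun_prop) (by fun_prop)
  have h2 : IsClosed {N : M3 | ∀ v, 0 ≤ qf N v} := by
    simp only [Set.ofPred_forall, qf]
    exact isClosed_iInter fun v => isClosed_le (by fun_prop) (by fun_prop)
  have h3 : IsClosed {N : M3 | ∑ i, N i i = 1} := isClosed_eq (by fun_prop) (by fun_prop)
  exact h1.inter (h2.inter h3)

lemma isCompact_XX : IsCompact XX := by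
  have h : XX ⊆ Set.pi Set.univ (fun _ : Fin 3 => Set.pi Set.univ
      (fun _ : Fin 3 => Set.Icc (-1 : ℝ) 1)) := by
    intro N hN i _ j _
    exact _root_.abs_le.1 (abs_le_one_of_mem hN i j)
  exact (isCompact_univ_pi fun _ => isCompact_univ_pi fun _ => isCompact_Icc).of_isClosed_subset
    isClosed_XX h

instance : CompactSpace XX := isCompact_iff_compactSpace.1 isCompact_XX

/-- `s⁻ᵀ N s⁻¹`. -/
def cjg (s : SL3R) (N : M3) : M3 := ((s⁻¹ : SL3R) : M3)ᵀ * N * ((s⁻¹ : SL3R) : M3)

/-- Its trace. -/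
def tc (s : SL3R) (N : M3) : ℝ := ∑ i, cjg s N i i

lemma cjg_mul (s t : SL3R) (N : M3) : cjg (s * t) N = cjg s (cjg t N) := by
  simp only [cjg, _root_.mul_inv_rev, Matrix.SpecialLinearGroup.coe_mul, Matrix.transpose_mul,
    Matrix.mul_assoc]

lemma cjg_smul (s : SL3R) (c : ℝ) (N : M3) : cjg s (c • N) = c • cjg s N := by
  simp only [cjg, Matrix.mul_smul, Matrix.smul_mul]

lemma cjg_one (N : M3) : cjg 1 N = N := by
  simp [cjg]

lemma tc_smul (s : SL3R) (c : ℝ) (N : M3) : tc s (c • N) = c * tc s N := by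
  simp only [tc, cjg_smul, Matrix.smul_apply, smul_eq_mul, Finset.mul_sum]

lemma PS.cjg {N : M3} (h : PS N) (s : SL3R) : PS (cjg s N) := h.conj _

lemma tc_pos (s : SL3R) {N : M3} (h : N ∈ XX) : 0 < tc s N := by
  rw [mem_XX] at h
  have hp := h.1.cjg s
  have h0 : 0 ≤ tc s N := Finset.sum_nonneg fun i _ => hp.diag i
  rcases h0.lt_or_eq with h1 | h1
  · exact h1
  · exfalso
    have h2 : cjg s N = 0 := hp.eq_zero h1.symm
    have h3 : N = 0 := by
      have : cjg (s⁻¹ * s) N = cjg s⁻¹ (cjg s N) := cjg_mul _ _ _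
      rw [inv_mul_cancel, cjg_one, h2] at this
      rw [this]; simp [H377.cjg]
    have h4 := h.2
    rw [h3] at h4
    simp at h4

/-- The projective action. -/
noncomputable def pact (s : SL3R) (N : M3) : M3 := (tc s N)⁻¹ • cjg s N

lemma pact_mem (s : SL3R) {N : M3} (h : N ∈ XX) : pact s N ∈ XX := by
  have ht := tc_pos s h
  have hp := (mem_XX.1 h).1.cjg s
  rw [mem_XX]
  refine ⟨⟨fun i j => ?_, fun v => ?_⟩, ?_⟩
  · simp only [pact, Matrix.smul_apply]; rw [hp.1 i j]
  · have : qf (pact s N) v = (tc s N)⁻¹ * qf (cjg s N) v := by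
      simp only [qf, pact, Matrix.smul_apply, smul_eq_mul, Finset.mul_sum]
      exact Finset.sum_congr rfl fun i _ => Finset.sum_congr rfl fun j _ => by ring
    rw [this]
    exact mul_nonneg (inv_nonneg.2 ht.le) (hp.2 v)
  · simp only [pact, Matrix.smul_apply, smul_eq_mul, ← Finset.mul_sum]
    exact inv_mul_cancel₀ ht.ne'

lemma pact_mul (s t : SL3R) {N : M3} (h : N ∈ XX) : pact (s * t) N = pact s (pact t N) := by
  have h1 := (tc_pos t h).ne'
  have h2 : tc (s * t) N = tc s (cjg t N) := by simp only [tc, cjg_mul]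
  simp only [pact, cjg_smul, tc_smul, cjg_mul, smul_smul, h2]
  congr 1
  rw [_root_.mul_inv_rev, inv_inv]
  field_simp

lemma continuous_cjg : Continuous (fun p : SL3R × M3 => cjg p.1 p.2) := by
  unfold cjg
  have h0 : Continuous (fun p : SL3R × M3 => (p.1 : M3)) :=
    continuous_subtype_val.comp continuous_fst
  have h1 : Continuous (fun p : SL3R × M3 => ((p.1⁻¹ : SL3R) : M3)) := by
    simp only [Matrix.SpecialLinearGroup.coe_inv]
    exact h0.matrix_adjugate
  exact (h1.matrix_transpose.matrix_mul continuous_snd).matrix_mul h1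

lemma continuous_tc : Continuous (fun p : SL3R × M3 => tc p.1 p.2) := by
  unfold tc
  exact continuous_finsetSum _ fun i _ =>
    (continuous_apply i).comp ((continuous_apply i).comp continuous_cjg)

/-- The action of `SL_3(ℝ)` on `XX`, as a function. -/
noncomputable def aX (s : SL3R) (N : XX) : XX := ⟨pact s N.1, pact_mem s N.2⟩

lemma continuous_aX : Continuous (fun p : SL3R × XX => aX p.1 p.2) := by
  have hi : Continuous (fun p : SL3R × XX => ((p.1, (p.2 : M3)) : SL3R × M3)) :=
    continuous_fst.prodMk (continuous_subtype_val.comp continuous_snd)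
  have h1 : Continuous ((fun p : SL3R × M3 => tc p.1 p.2) ∘
      (fun p : SL3R × XX => ((p.1, (p.2 : M3)) : SL3R × M3))) := continuous_tc.comp hi
  have h2 : Continuous ((fun p : SL3R × M3 => cjg p.1 p.2) ∘
      (fun p : SL3R × XX => ((p.1, (p.2 : M3)) : SL3R × M3))) := continuous_cjg.comp hi
  rw [Function.comp_def] at h1 h2
  have h3 : Continuous (fun p : SL3R × XX => (tc p.1 (p.2 : M3))⁻¹) :=
    Continuous.inv₀ h1 (fun p => (tc_pos p.1 p.2.2).ne')
  have h4 : Continuous (fun p : SL3R × XX => pact p.1 (p.2 : M3)) := by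
    unfold pact
    exact h3.smul h2
  exact h4.subtype_mk _

/-- The action of `SL_3(ℝ)` on `XX`. -/
noncomputable def actX : CAct SL3R XX where
  a := aX
  cont := continuous_aX
  mul s t N := Subtype.ext (pact_mul s t N.2)

end Vale.Agent.P092.H377
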