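import Vale.Agent.P092.H553.Defs

/-!
P092 (helper377): `∑_{b ∈ SL_3(ℤ)} ‖b‖^{-18} < ∞`.
-/

namespace Vale.Agent.P092.H377

open Vale.Agent.P092.H553

theorem summable_pi {β : Type*} (h : β → ℝ) (h0 : ∀ m, 0 ≤ h m) (hs : Summable h) (n : ℕ) :
    Summable (fun f : Fin n → β => ∏ i, h (f i)) := by
  induction n with
  | zero => exact summable_of_hasFiniteSupport (Set.toFinite _)
  | succ n ih =>
    have hg0 : (0 : (Fin n → β) → ℝ) ≤ fun f : Fin n → β => ∏ i, h (f i) :=
      fun f => Finset.prod_nonneg fun i _ => h0 _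
    have hf0 : (0 : β → ℝ) ≤ h := fun m => h0 m
    have key := Summable.mul_of_nonneg (f := h) (g := fun f : Fin n → β => ∏ i, h (f i))
      hs ih hf0 hg0
    have hinj : Function.Injective (fun f : Fin (n + 1) → β => (f 0, fun i : Fin n => f i.succ)) := by
      intro f g hfg
      rw [Prod.mk.injEq] at hfg
      funext i
      refine Fin.cases hfg.1 (fun j => ?_) i
      exact congrFun hfg.2 j
    refine (key.comp_injective hinj).congr fun f => ?_
    rw [Fin.prod_univ_succ]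
    rfl

theorem summable_h : Summable (fun m : ℤ => (max 1 ((m : ℝ) ^ 2))⁻¹) := by
  have h1 : Summable (fun m : ℤ => 1 / (m : ℝ) ^ 2) :=
    Real.summable_one_div_int_pow.2 (by norm_num)
  have h2 : Summable (fun m : ℤ => if m = 0 then (1 : ℝ) else 0) :=
    summable_of_ne_finset_zero (s := {0}) (by intro b hb; simp at hb; simp [hb])
  refine Summable.of_nonneg_of_le (fun m => by positivity) (fun m => ?_) (h1.add h2)
  by_cases hm : m = 0
  · subst hm; simp
  · have hm' : (m : ℝ) ≠ 0 := by exact_mod_cast hm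
    have : (max 1 ((m : ℝ) ^ 2))⁻¹ ≤ ((m : ℝ) ^ 2)⁻¹ :=
      inv_anti₀ (by positivity) (le_max_right _ _)
    simpa [hm] using this

theorem sq_le_rA (b : G3) (i j : Fin 3) : ((b : Matrix (Fin 3) (Fin 3) ℤ) i j : ℝ) ^ 2 ≤ rA b := by
  unfold rA hs rm en
  calc ((b : Matrix (Fin 3) (Fin 3) ℤ) i j : ℝ) ^ 2
      ≤ ∑ j, ((b : Matrix (Fin 3) (Fin 3) ℤ) i j : ℝ) ^ 2 :=
        Finset.single_le_sum (f := fun j => ((b : Matrix (Fin 3) (Fin 3) ℤ) i j : ℝ) ^ 2)
          (fun _ _ => sq_nonneg _) (Finset.mem_univ j)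
    _ ≤ _ := Finset.single_le_sum
          (f := fun i => ∑ j, ((b : Matrix (Fin 3) (Fin 3) ℤ) i j : ℝ) ^ 2)
          (fun _ _ => Finset.sum_nonneg fun _ _ => sq_nonneg _) (Finset.mem_univ i)

theorem one_le_rA (b : G3) : 1 ≤ rA b := by
  by_contra hlt
  push Not at hlt
  have hz : ∀ i j, (b : Matrix (Fin 3) (Fin 3) ℤ) i j = 0 := by
    intro i j
    have h := (sq_le_rA b i j).trans_lt hlt
    by_contra hne
    have h1 : (1 : ℤ) ≤ ((b : Matrix (Fin 3) (Fin 3) ℤ) i j) ^ 2 := by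
      have := sq_nonneg ((b : Matrix (Fin 3) (Fin 3) ℤ) i j)
      have h2 : ((b : Matrix (Fin 3) (Fin 3) ℤ) i j) ^ 2 ≠ 0 := pow_ne_zero 2 hne
      omega
    have h2 : (1 : ℝ) ≤ ((b : Matrix (Fin 3) (Fin 3) ℤ) i j : ℝ) ^ 2 := by exact_mod_cast h1
    linarith
  have hdet := b.det_coe
  have : (b : Matrix (Fin 3) (Fin 3) ℤ) = 0 := by
    ext i j; simpa using hz i j
  rw [this] at hdet
  simp at hdet

theorem summable_rA : Summable (fun b : G3 => ((rA b) ^ 9)⁻¹) := by
  have h1 := summable_pi _ (fun m : ℤ => (by positivity : (0:ℝ) ≤ (max 1 ((m : ℝ) ^ 2))⁻¹))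
    summable_h 3
  have h2 := summable_pi _ (fun f : Fin 3 → ℤ =>
    (Finset.prod_nonneg fun i _ => by positivity :
      (0:ℝ) ≤ ∏ i, (max 1 ((f i : ℝ) ^ 2))⁻¹)) h1 3
  have hinj : Function.Injective (fun b : G3 => (fun i j => (b : Matrix (Fin 3) (Fin 3) ℤ) i j :
      Fin 3 → Fin 3 → ℤ)) := by
    intro a b hab
    apply Subtype.ext
    ext i j
    exact congrFun (congrFun hab i) j
  have h3 := h2.comp_injective hinj
  refine Summable.of_nonneg_of_le (fun b => ?_) (fun b => ?_) h3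
  · have := one_le_rA b
    positivity
  · have hb := one_le_rA b
    have hpos : 0 < rA b := by linarith
    simp only [Function.comp]
    have : ((rA b) ^ 9)⁻¹ = ∏ i : Fin 3, ∏ j : Fin 3, (rA b)⁻¹ := by
      simp [Finset.prod_const, ← pow_mul]
    rw [this]
    refine Finset.prod_le_prod (fun i _ => Finset.prod_nonneg fun j _ => by positivity)
      fun i _ => ?_
    refine Finset.prod_le_prod (fun j _ => by positivity) fun j _ => ?_
    exact inv_anti₀ (by positivity) (max_le hb (sq_le_rA b i j))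

end Vale.Agent.P092.H377
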