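import Vale.Agent.P092.H377.Summ

/-!
P092 (helper377): for a homomorphism `φ : G → SL_3(ℝ)` with finite balls (a discrete subgroup,
or a finite extension of one), `∑_{b ∈ G} ‖φ b‖^{-58} < ∞`.
-/

namespace Vale.Agent.P092.H377

open Vale.Agent.P092.H553 Matrix

/-- Real three by three matrices. -/
abbrev M3 : Type := Matrix (Fin 3) (Fin 3) ℝ

/-- `SL_3(ℝ)`. -/
abbrev SL3R : Type := Matrix.SpecialLinearGroup (Fin 3) ℝ

lemma hs_nn (m : M3) : 0 ≤ hs m :=
  Finset.sum_nonneg fun _ _ => Finset.sum_nonneg fun _ _ => sq_nonneg _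

lemma sq_le_hs (M : M3) (i j : Fin 3) : M i j ^ 2 ≤ hs M := by
  unfold hs
  calc M i j ^ 2 ≤ ∑ j, M i j ^ 2 :=
        Finset.single_le_sum (f := fun j => M i j ^ 2) (fun _ _ => sq_nonneg _) (Finset.mem_univ j)
    _ ≤ _ := Finset.single_le_sum (f := fun i => ∑ j, M i j ^ 2)
          (fun _ _ => Finset.sum_nonneg fun _ _ => sq_nonneg _) (Finset.mem_univ i)

lemma hs_mul_le_R (M N : M3) : hs (M * N) ≤ hs M * hs N := by
  have h : ∀ i j, (∑ k, M i k * N k j) ^ 2 ≤ (∑ k, M i k ^ 2) * (∑ k, N k j ^ 2) :=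
    fun i j => Finset.sum_mul_sq_le_sq_mul_sq _ _ _
  calc hs (M * N) = ∑ i, ∑ j, (∑ k, M i k * N k j) ^ 2 := by simp only [hs, Matrix.mul_apply]
    _ ≤ ∑ i, ∑ j, (∑ k, M i k ^ 2) * (∑ k, N k j ^ 2) :=
        Finset.sum_le_sum fun i _ => Finset.sum_le_sum fun j _ => h i j
    _ = hs M * hs N := by
        simp only [hs]
        rw [Finset.sum_comm (f := fun i j => N i j ^ 2), Finset.sum_mul]
        exact Finset.sum_congr rfl fun i _ => (Finset.mul_sum _ _ _).symm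

/-- `3 ‖adj M‖² ≤ ‖M‖⁴`. -/
lemma three_hs_adj_le (M : M3) : 3 * hs M.adjugate ≤ hs M ^ 2 := by
  have : hs M ^ 2 - 3 * hs M.adjugate =
      (∑ i, ∑ j, (∑ k, M i k * M j k - if i = j then hs M / 3 else 0) ^ 2) * (3 / 2) := by
    rw [Matrix.adjugate_fin_three]
    simp only [hs, Fin.sum_univ_three, Matrix.of_apply, Matrix.cons_val', Matrix.cons_val_zero,
      Matrix.cons_val_one, Matrix.cons_val_two, Matrix.head_cons, Matrix.tail_cons,
      Matrix.cons_val_fin_one, Matrix.empty_val', Matrix.head_fin_const]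
    simp only [Fin.isValue, if_true, if_false, Fin.reduceEq]
    ring
  have h2 : 0 ≤ (∑ i, ∑ j, (∑ k, M i k * M j k - if i = j then hs M / 3 else 0) ^ 2)
      * (3 / 2 : ℝ) :=
    mul_nonneg (Finset.sum_nonneg fun _ _ => Finset.sum_nonneg fun _ _ => sq_nonneg _) (by norm_num)
  linarith

/-- `3 ‖g⁻¹‖² ≤ ‖g‖⁴` in `SL_3(ℝ)`. -/
lemma three_hs_inv_le (g : SL3R) : 3 * hs ((g⁻¹ : SL3R) : M3) ≤ hs (g : M3) ^ 2 := by
  rw [Matrix.SpecialLinearGroup.coe_inv]
  exact three_hs_adj_le _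

/-- `‖g‖² ≥ 3` in `SL_3(ℝ)` (arithmetic-geometric mean inequality). -/
lemma three_le_hs (g : SL3R) : 3 ≤ hs (g : M3) := by
  have h1 := three_hs_inv_le g
  have h2 := three_hs_inv_le g⁻¹
  rw [inv_inv] at h2
  have ha := hs_nn (g : M3)
  have hb := hs_nn ((g⁻¹ : SL3R) : M3)
  set a := hs (g : M3)
  set b := hs ((g⁻¹ : SL3R) : M3)
  -- `a > 0`
  have hapos : 0 < a := by
    rcases ha.lt_or_eq with h | h
    · exact h
    · exfalso
      have hz : (g : M3) = 0 := by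
        ext i j
        have := sq_le_hs (g : M3) i j
        have h0 : (g : M3) i j ^ 2 ≤ 0 := this.trans_eq h.symm
        simpa using pow_eq_zero_iff (two_ne_zero) |>.1 (le_antisymm h0 (sq_nonneg _))
      have hd := g.det_coe
      rw [hz] at hd
      simp at hd
  -- `27 a ≤ a⁴`
  have h3 : 27 * a ≤ a ^ 4 := by nlinarith
  by_contra hlt
  push Not at hlt
  have : a ^ 3 < 27 := by
    have : a ^ 3 < 3 ^ 3 := pow_lt_pow_left₀ hlt ha (by norm_num)
    norm_num at this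
    exact this
  nlinarith

lemma exists_pos_le_of_finite {ι : Type*} (s : Set ι) (hs : s.Finite) (f : ι → ℝ)
    (hf : ∀ i ∈ s, 0 < f i) : ∃ δ : ℝ, 0 < δ ∧ ∀ i ∈ s, δ ≤ f i := by
  rcases s.eq_empty_or_nonempty with h | h
  · exact ⟨1, one_pos, by simp [h]⟩
  · obtain ⟨i, hi, hmin⟩ := Set.exists_min_image s f hs h
    exact ⟨f i, hf i hi, hmin⟩

variable {G : Type*} [Group G]

/-- Discreteness at the identity. -/
lemma exists_gap (φ : G →* SL3R) (fin : ∀ R : ℝ, {g : G | hs (φ g : M3) ≤ R}.Finite) :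
    ∃ δ : ℝ, 0 < δ ∧ ∀ g, φ g ≠ 1 → δ ≤ hs ((φ g : M3) - 1) := by
  obtain ⟨δ, hδ, hmin⟩ := exists_pos_le_of_finite {g : G | hs (φ g : M3) ≤ 8 ∧ φ g ≠ 1}
    ((fin 8).subset fun g hg => hg.1) (fun g => hs ((φ g : M3) - 1)) (by
      rintro g ⟨-, hg⟩
      rcases (hs_nn ((φ g : M3) - 1)).lt_or_eq with h | h
      · exact h
      · exfalso
        apply hg
        apply Subtype.ext
        ext i j
        have h0 : ((φ g : M3) - 1) i j ^ 2 ≤ 0 := (sq_le_hs _ i j).trans_eq h.symm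
        have h1 : ((φ g : M3) - 1) i j = 0 :=
          pow_eq_zero_iff (two_ne_zero) |>.1 (le_antisymm h0 (sq_nonneg _))
        rw [Matrix.sub_apply, sub_eq_zero] at h1
        simpa using h1)
  refine ⟨min δ 1, lt_min hδ one_pos, fun g hg => ?_⟩
  by_cases h8 : hs (φ g : M3) ≤ 8
  · exact (min_le_left _ _).trans (hmin g ⟨h8, hg⟩)
  · push Not at h8
    refine (min_le_right _ _).trans ?_
    have hle : hs (φ g : M3) ≤ 2 * hs ((φ g : M3) - 1) + 2 * hs (1 : M3) := by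
      have h : ∀ i j, ((φ g : M3) i j) ^ 2 ≤
          2 * ((φ g : M3) - 1) i j ^ 2 + 2 * ((1 : M3) i j) ^ 2 := by
        intro i j
        rw [Matrix.sub_apply]
        nlinarith [sq_nonneg ((φ g : M3) i j - (1 : M3) i j - (1 : M3) i j)]
      calc hs (φ g : M3) = ∑ i, ∑ j, ((φ g : M3) i j) ^ 2 := rfl
        _ ≤ ∑ i, ∑ j, (2 * ((φ g : M3) - 1) i j ^ 2 + 2 * ((1 : M3) i j) ^ 2) :=
            Finset.sum_le_sum fun i _ => Finset.sum_le_sum fun j _ => h i j
        _ = _ := by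
            simp only [hs, Finset.mul_sum, Finset.sum_add_distrib]
    have h1 : hs (1 : M3) = 3 := by
      simp [hs, Matrix.one_apply]
    rw [h1] at hle
    linarith

/-- Main statement: polynomial growth of the balls, in the form of a convergent series. -/
theorem summable_hs (φ : G →* SL3R) (fin : ∀ R : ℝ, {g : G | hs (φ g : M3) ≤ R}.Finite) :
    Summable (fun b : G => ((hs (φ b : M3)) ^ 29)⁻¹) := by
  classical
  obtain ⟨δ, hδ, hgap⟩ := exists_gap φ fin
  obtain ⟨c, hc, hcδ⟩ : ∃ c : ℝ, 0 < c ∧ 3 ≤ c ^ 2 * δ := by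
    refine ⟨Real.sqrt (3 / δ), by positivity, ?_⟩
    rw [Real.sq_sqrt (by positivity)]
    field_simp
    exact le_refl _
  have h3 : ∀ b : G, 3 ≤ hs (φ b : M3) := fun b => three_le_hs _
  -- the coding map
  let mm : G → ℕ := fun b => ⌊hs (φ b : M3)⌋₊
  let zz : G → Fin 3 → Fin 3 → ℤ := fun b i j => ⌊c * (mm b + 1) * (φ b : M3) i j⌋
  have hm1 : ∀ b, hs (φ b : M3) < mm b + 1 := fun b => Nat.lt_floor_add_one _
  have hm2 : ∀ b, (mm b : ℝ) ≤ hs (φ b : M3) := fun b => Nat.floor_le (hs_nn _)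
  let F : G → ℕ × (Fin 3 → Fin 3 → ℤ) := fun b => (mm b, zz b)
  have hF : ∀ b b', F b = F b' → φ (b⁻¹ * b') = 1 := by
    intro b b' hbb
    have hm : mm b = mm b' := congrArg Prod.fst hbb
    have hz : zz b = zz b' := congrArg Prod.snd hbb
    by_contra hne
    have hg := hgap _ hne
    have hK : 0 < c * ((mm b : ℝ) + 1) := by positivity
    -- entries are close
    have hent : ∀ i j, (((φ b' : M3) - (φ b : M3)) i j) ^ 2 < ((c * ((mm b : ℝ) + 1)) ^ 2)⁻¹ := by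
      intro i j
      have h1 : zz b i j = zz b' i j := by rw [hz]
      have h2 := Int.abs_sub_lt_one_of_floor_eq_floor h1.symm
      rw [← hm, ← mul_sub, abs_mul, abs_of_pos hK] at h2
      have h4 : (c * ((mm b : ℝ) + 1)) ^ 2 * ((φ b' : M3) i j - (φ b : M3) i j) ^ 2 < 1 := by
        rw [← mul_pow, ← sq_abs, abs_mul, abs_of_pos hK]
        have h5 := mul_nonneg hK.le (abs_nonneg ((φ b' : M3) i j - (φ b : M3) i j))
        nlinarith
      rw [Matrix.sub_apply, ← one_div, lt_div_iff₀ (by positivity), mul_comm]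
      exact h4
    have hclose : hs ((φ b' : M3) - (φ b : M3)) ≤ 9 * ((c * ((mm b : ℝ) + 1)) ^ 2)⁻¹ := by
      calc hs ((φ b' : M3) - (φ b : M3))
          = ∑ i, ∑ j, (((φ b' : M3) - (φ b : M3)) i j) ^ 2 := rfl
        _ ≤ ∑ i : Fin 3, ∑ j : Fin 3, ((c * ((mm b : ℝ) + 1)) ^ 2)⁻¹ :=
            Finset.sum_le_sum fun i _ => Finset.sum_le_sum fun j _ => (hent i j).le
        _ = 9 * ((c * ((mm b : ℝ) + 1)) ^ 2)⁻¹ := by
            simp; ring
    have heq : (φ (b⁻¹ * b') : M3) - 1 = ((φ b)⁻¹ : SL3R).1 * ((φ b' : M3) - (φ b : M3)) := by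
      rw [map_mul, map_inv, Matrix.SpecialLinearGroup.coe_mul, Matrix.mul_sub]
      congr 1
      have : (((φ b)⁻¹ * φ b : SL3R) : M3) = 1 := by rw [inv_mul_cancel]; rfl
      rw [← this, Matrix.SpecialLinearGroup.coe_mul]
    have h6 : hs ((φ (b⁻¹ * b') : M3) - 1) ≤
        hs (((φ b)⁻¹ : SL3R) : M3) * (9 * ((c * ((mm b : ℝ) + 1)) ^ 2)⁻¹) := by
      rw [heq]
      exact (hs_mul_le_R _ _).trans (mul_le_mul_of_nonneg_left hclose (hs_nn _))
    have h7 : 3 * hs (((φ b)⁻¹ : SL3R) : M3) < ((mm b : ℝ) + 1) ^ 2 :=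
      (three_hs_inv_le _).trans_lt (pow_lt_pow_left₀ (hm1 b) (hs_nn _) (by norm_num))
    have h8 : hs (((φ b)⁻¹ : SL3R) : M3) * (9 * ((c * ((mm b : ℝ) + 1)) ^ 2)⁻¹) < δ := by
      have hm0 : (0 : ℝ) < (mm b : ℝ) + 1 := by positivity
      rw [← div_eq_mul_inv, ← mul_div_assoc, div_lt_iff₀ (by positivity), mul_pow]
      have h9 : 9 * hs (((φ b)⁻¹ : SL3R) : M3) < 3 * ((mm b : ℝ) + 1) ^ 2 := by linarith
      have h10 : 3 * ((mm b : ℝ) + 1) ^ 2 ≤ (c ^ 2 * δ) * ((mm b : ℝ) + 1) ^ 2 :=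
        mul_le_mul_of_nonneg_right hcδ (by positivity)
      nlinarith
    linarith
  -- the kernel is finite
  have hker : Finite φ.ker := by
    have : (φ.ker : Set G) ⊆ {g : G | hs (φ g : M3) ≤ 3} := by
      intro g hg
      have hg1 : φ g = 1 := hg
      simp [hs, hg1, Matrix.one_apply]
    exact ((fin 3).subset this).to_subtype
  have := Fintype.ofFinite φ.ker
  -- representatives of the fibres
  let rep : ℕ × (Fin 3 → Fin 3 → ℤ) → G := fun x => if h : ∃ b, F b = x then h.choose else 1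
  have hrep : ∀ b, F (rep (F b)) = F b := by
    intro b
    have h : ∃ b', F b' = F b := ⟨b, rfl⟩
    have : rep (F b) = h.choose := by
      show (if h : ∃ b', F b' = F b then h.choose else 1) = h.choose
      rw [dif_pos h]
    rw [this]
    exact h.choose_spec
  let Ψ : G → (ℕ × (Fin 3 → Fin 3 → ℤ)) × φ.ker :=
    fun b => (F b, ⟨(rep (F b))⁻¹ * b, hF _ _ (hrep b)⟩)
  have hΨ : Function.Injective Ψ := by
    intro b b' h
    have h1 : F b = F b' := congrArg Prod.fst h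
    have h2 : (rep (F b))⁻¹ * b = (rep (F b'))⁻¹ * b' :=
      congrArg Subtype.val (congrArg Prod.snd h)
    rw [h1] at h2
    exact mul_left_cancel h2
  -- the summable majorant
  have s1 : Summable (fun m : ℕ => (((m : ℝ) + 1) ^ 2)⁻¹) := by
    have := (summable_nat_add_iff 1).2 (Real.summable_one_div_nat_pow.2 (by norm_num : 1 < 2))
    refine this.congr fun m => ?_
    push_cast
    rw [one_div]
  have t1 := summable_pi _ (fun m : ℤ => (by positivity : (0:ℝ) ≤ (max 1 ((m : ℝ) ^ 2))⁻¹))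
    summable_h 3
  have t2 := summable_pi _ (fun f : Fin 3 → ℤ =>
    (Finset.prod_nonneg fun i _ => by positivity :
      (0:ℝ) ≤ ∏ i, (max 1 ((f i : ℝ) ^ 2))⁻¹)) t1 3
  let P : (Fin 3 → Fin 3 → ℤ) → ℝ := fun f => ∏ i, ∏ j, (max 1 ((f i j : ℝ) ^ 2))⁻¹
  have t2' : Summable P := t2
  have hP0 : (0 : (Fin 3 → Fin 3 → ℤ) → ℝ) ≤ P := fun f =>
    Finset.prod_nonneg fun i _ => Finset.prod_nonneg fun j _ => by positivity
  have hQ0 : (0 : ℕ → ℝ) ≤ fun m : ℕ => (((m : ℝ) + 1) ^ 2)⁻¹ := fun m => by positivity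
  have s2 := Summable.mul_of_nonneg s1 t2' hQ0 hP0
  have hW0 : (0 : ℕ × (Fin 3 → Fin 3 → ℤ) → ℝ) ≤
      fun x => (((x.1 : ℝ) + 1) ^ 2)⁻¹ * P x.2 := fun x => mul_nonneg (hQ0 x.1) (hP0 x.2)
  have s3 : Summable (fun _ : φ.ker => (1 : ℝ)) := summable_of_hasFiniteSupport (Set.toFinite _)
  have s4 := Summable.mul_of_nonneg s2 s3 hW0 (fun _ => zero_le_one)
  have s5 := (s4.comp_injective hΨ)
  set D : ℝ := 8 * c ^ 2 + 2 with hD
  have hD2 : 2 ≤ D := by have := sq_nonneg c; linarith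
  refine Summable.of_nonneg_of_le (fun b => ?_) (fun b => ?_) (s5.mul_left (4 * D ^ 9))
  · have := h3 b
    positivity
  · have hr := h3 b
    simp only [Function.comp, mul_one, Ψ, F, P]
    set r := hs (φ b : M3) with hrdef
    have hm1' : (mm b : ℝ) + 1 ≤ 2 * r := by have := hm2 b; linarith
    have hmpos : (0 : ℝ) < (mm b : ℝ) + 1 := by positivity
    have hz : ∀ i j, max 1 ((zz b i j : ℝ) ^ 2) ≤ D * r ^ 3 := by
      intro i j
      have hrr : 1 ≤ r ^ 3 := one_le_pow₀ (by linarith)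
      refine max_le (by nlinarith) ?_
      have hx : |(zz b i j : ℝ) - c * ((mm b : ℝ) + 1) * (φ b : M3) i j| ≤ 1 := by
        rw [abs_le]
        have l1 := Int.floor_le (c * ((mm b : ℝ) + 1) * (φ b : M3) i j)
        have l2 := Int.lt_floor_add_one (c * ((mm b : ℝ) + 1) * (φ b : M3) i j)
        constructor
        · simp only [zz]; linarith
        · simp only [zz]; linarith
      have hx2 := (abs_le.1 hx)
      set y := c * ((mm b : ℝ) + 1) * (φ b : M3) i j with hy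
      have hy2 : y ^ 2 ≤ c ^ 2 * (2 * r) ^ 2 * r := by
        rw [hy, mul_pow, mul_pow]
        refine mul_le_mul (mul_le_mul_of_nonneg_left
          (pow_le_pow_left₀ hmpos.le hm1' 2) (sq_nonneg c)) (sq_le_hs _ i j) (sq_nonneg _)
          (by positivity)
      have hz2 : (zz b i j : ℝ) ^ 2 ≤ 2 * y ^ 2 + 2 := by
        nlinarith [sq_nonneg ((zz b i j : ℝ) - 2 * y), hx2.1, hx2.2]
      calc (zz b i j : ℝ) ^ 2 ≤ 2 * y ^ 2 + 2 := hz2
        _ ≤ 2 * (c ^ 2 * (2 * r) ^ 2 * r) + 2 * r ^ 3 := by linarith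
        _ = D * r ^ 3 := by rw [hD]; ring
    have hprod : (D * r ^ 3) ^ 9 ≥ ∏ i : Fin 3, ∏ j : Fin 3, max 1 ((zz b i j : ℝ) ^ 2) := by
      have : (D * r ^ 3) ^ 9 = ∏ i : Fin 3, ∏ j : Fin 3, (D * r ^ 3) := by
        simp [Finset.prod_const, ← pow_mul]
      rw [this]
      exact Finset.prod_le_prod (fun i _ => Finset.prod_nonneg fun j _ => by positivity)
        fun i _ => Finset.prod_le_prod (fun j _ => by positivity) fun j _ => hz i j
    have hpp : 0 < ∏ i : Fin 3, ∏ j : Fin 3, max 1 ((zz b i j : ℝ) ^ 2) :=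
      Finset.prod_pos fun i _ => Finset.prod_pos fun j _ => by positivity
    simp only [Finset.prod_inv_distrib]
    rw [← mul_inv, ← div_eq_mul_inv, le_div_iff₀ (mul_pos (by positivity) hpp),
      inv_mul_le_iff₀ (by positivity)]
    calc ((mm b : ℝ) + 1) ^ 2 * ∏ i : Fin 3, ∏ j : Fin 3, max 1 ((zz b i j : ℝ) ^ 2)
        ≤ (2 * r) ^ 2 * (D * r ^ 3) ^ 9 :=
          mul_le_mul (pow_le_pow_left₀ hmpos.le hm1' 2) hprod hpp.le (by positivity)
      _ = r ^ 29 * (4 * D ^ 9) := by ring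

end Vale.Agent.P092.H377
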